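import Crest.Agent.X212.Cut54.Wld
import Crest.Agent.X212.Hol14.Sq
import Crest.Agent.X212.Line51.Cm

/-!
# Row 212, CUT-DAT, part 8: the degree of a line on the sphere of a cut

`flx I γ w`: the integral of a two-form over the sphere; `Deg q n`: two frames on the square;
`Deg.flx`: the curvature integral is `2 π n`; `Deg.tp`; `RS.deg`, `deg_wd`.
-/

set_option autoImplicit false
set_option linter.unusedSectionVars false
noncomputable section
open scoped Manifold ContDiff Topology Real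
open Set Filter Function
open Crest.Agent.R208.F Crest.Agent.X212.Pj41 Crest.Agent.X212.Dr59
open Crest.Agent.X212.Rod53 hiding Uni
open Crest.Agent.X212.Glue52 Crest.Agent.X212.Line51
open Crest.Agent.X212.Num57 (e1 e2)
open Crest.Agent.X212.Hol14 (pd Cd)

namespace Crest.Agent.X212.Cut54

/-- the model of the plane -/
abbrev I2 := 𝓘(ℝ, ℝ × ℝ)

/-- functions on the cylinder as functions on the plane -/
abbrev un {X : Type*} (t : UnitAddCircle → ℝ → X) (y : ℝ × ℝ) : X := t y.1 y.2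

theorem dv_pd (v : ℝ × ℝ) (f : ℝ × ℝ → ℝ) : Sob92.dv I2 (fun _ => v) f = pd v f :=
  funext fun y => congrArg (fun A : ℝ × ℝ →L[ℝ] ℝ => A v) (mf_eq_fderiv f y)

theorem sm_cv (v y : ℝ × ℝ) :
    ContMDiffAt I2 I2.tangent ∞ (fun x => (⟨x, v⟩ : TangentBundle I2 (ℝ × ℝ))) y :=
  contMDiffAt_vectorSpace_iff_contDiffAt.2 contDiffAt_const

theorem e2_dM_sq {β : ℝ × ℝ → Ext (ℝ × ℝ)} {y : ℝ × ℝ} (h : SmAt I2 β y)
    (hd : ∀ᶠ z in 𝓝 y, R208.FI.IsDeg 1 (β z)) : e2 (dM I2 β y) (1, 0) (0, 1) =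
      pd (1, 0) (fun z => e1 (β z) (0, 1)) y - pd (0, 1) (fun z => e1 (β z) (1, 0)) y := by
  have F : Wz78.Frm I2 (fun (a : Fin 2) _ => (![(1, 0), (0, 1)] a : ℝ × ℝ))
      (fun a b _ => if a = b then 1 else 0) fun _ _ _ _ => 0 :=
    ⟨fun _ => sm_cv _, fun _ _ _ => contMDiffAt_const, fun _ _ _ _ => contMDiffAt_const,
      fun _ => ⟨fun a b => by simp only [eq_comm], fun a b => by simp⟩, fun a x =>
        show ∑ b, (if a = b then (1 : ℝ) else 0) • (![(1, 0), (0, 1)] b : ℝ × ℝ) = ![(1, 0), (0, 1)] a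
          by simp only [ite_smul, one_smul, zero_smul, Finset.sum_ite_eq, Finset.mem_univ, if_true],
      fun a b f x hf => by simp [dv_pd, Hol14.pd_comm hf.contDiffAt]⟩
  simpa [dv_pd] using e2_dM F h hd 0 1

variable {E : Type} [NormedAddCommGroup E] [NormedSpace ℝ E] [FiniteDimensional ℝ E]
  {HM : Type} [TopologicalSpace HM] {I : ModelWithCorners ℝ E HM} [I.Boundaryless]
  {M : Type} [TopologicalSpace M] [ChartedSpace HM M] [IsManifold I ∞ M]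
  {E' : Type} [NormedAddCommGroup E'] [NormedSpace ℝ E'] [FiniteDimensional ℝ E']
  {HM' : Type} [TopologicalSpace HM'] {I' : ModelWithCorners ℝ E' HM'} [I'.Boundaryless]
  {M' : Type} [TopologicalSpace M'] [ChartedSpace HM' M'] [IsManifold I' ∞ M']
  {κ κ' : Type} [Fintype κ] [Fintype κ'] {γ : UnitAddCircle → ℝ → M} {n : ℤ}

variable (I) in
/-- the integral of a two-form over the sphere -/
def flx (γ : UnitAddCircle → ℝ → M) (w : M → Ext E) : ℝ :=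
  ∫ θ in (0 : ℝ)..1, ∫ s in (0 : ℝ)..1, e2 (w (γ θ s))
    (mfderiv 𝓘(ℝ, ℝ × ℝ) I (fun y : ℝ × ℝ => γ y.1 y.2) (θ, s) (1, 0))
    (mfderiv 𝓘(ℝ, ℝ × ℝ) I (fun y : ℝ × ℝ => γ y.1 y.2) (θ, s) (0, 1))

theorem flx_eq (w : M → Ext E) : flx I γ w =
    ∫ θ in (0 : ℝ)..1, ∫ s in (0 : ℝ)..1, e2 (pm I2 I (un γ) w (θ, s)) (1, 0) (0, 1) := by
  simp only [pm_apply, e2_pb]
  rfl

theorem flx_congr {w w' : M → Ext E} (h : ∀ θ s, w (γ θ s) = w' (γ θ s)) : flx I γ w = flx I γ w' := by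
  simp only [flx, h]

/-- naturality -/
theorem flx_comp (sm : ContMDiff I2 I ∞ (un γ)) {φ : M → M'}
    (hφ : ∀ θ s, ContMDiffAt I I' ∞ φ (γ θ s)) (w : M' → Ext E') :
    flx I' (fun θ s => φ (γ θ s)) w = flx I γ (pm I I' φ w) := by
  have : ∀ y, pm I2 I (un γ) (pm I I' φ w) y = pm I2 I' (un fun θ s => φ (γ θ s)) w y := fun y =>
    pm_comp (f := un γ) ((hφ _ _).mdifferentiableAt ne0) ((sm y).mdifferentiableAt ne0)
  simp only [flx_eq, this]

/-- a line on the sphere with two frames and the clutching function `θ ^ n` -/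
def Deg (q : UnitAddCircle → ℝ → Matrix κ κ ℂ) (n : ℤ) : Prop :=
  ∃ t₁ t₂ : UnitAddCircle → ℝ → Matrix κ Unit ℂ,
    Uni I2 (fun _ => 1) (un q) (un t₁) {y | y.2 < 1} ∧
    Uni I2 (fun _ => 1) (un q) (un t₂) {y | 0 < y.2} ∧ (∀ θ, t₁ θ 0 = t₁ 0 0) ∧
    (∀ θ, t₂ θ 1 = t₂ 0 1) ∧
    ∀ θ s, 0 < s → s < 1 → t₂ θ s = ((θ.toCircle ^ n : Circle) : ℂ) • t₁ θ s

theorem Deg.tp {q : UnitAddCircle → ℝ → Matrix κ κ ℂ} {q' : UnitAddCircle → ℝ → Matrix κ' κ' ℂ}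
    {u : UnitAddCircle → ℝ → Matrix κ' κ ℂ} (h : Deg q n) (hu : Uni I2 (un q) (un q') (un u) univ)
    (u0 : ∀ θ, u θ 0 = u 0 0) (u1 : ∀ θ, u θ 1 = u 0 1) : Deg q' n :=
  let ⟨t₁, t₂, a, b, c, d, e⟩ := h
  ⟨fun θ s => u θ s * t₁ θ s, fun θ s => u θ s * t₂ θ s, a.trans (hu.mono (subset_univ _)),
    b.trans (hu.mono (subset_univ _)), fun θ => by simp only [u0 θ, c θ],
    fun θ => by simp only [u1 θ, d θ], fun θ s h0 h1 => by simp only [e θ s h0 h1, Matrix.mul_smul]⟩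

/-- transport along an isometry of lines near the sphere -/
theorem Deg.uni {p : M → Matrix κ κ ℂ} {q : M → Matrix κ' κ' ℂ} {u : M → Matrix κ' κ ℂ} {K : Set M}
    (h : Deg (fun θ s => p (γ θ s)) n) (sm : ContMDiff I2 I ∞ (un γ)) (h0 : ∀ θ, γ θ 0 = γ 0 0)
    (h1 : ∀ θ, γ θ 1 = γ 0 1) (hK : ∀ θ s, γ θ s ∈ K) (hu : Uni I p q u K) :
    Deg (fun θ s => q (γ θ s)) n :=
  h.tp (u := fun θ s => u (γ θ s)) (hu.comp ⟨fun y _ => sm y, fun _ _ => hK _ _⟩)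
    (fun θ => by simp only [h0 θ]) fun θ => by simp only [h1 θ]

theorem e1_line {c : ℝ → ℝ × ℝ} {x : ℝ} {v : ℝ × ℝ} (hc : HasDerivAt c v x)
    {t : ℝ × ℝ → Matrix κ Unit ℂ} (ht : MSm I2 t (c x)) {f : ℝ × ℝ → M}
    (hf : ContMDiffAt I2 I ∞ f (c x)) (a : M → Ext E) :
    e1 (th I2 t (c x) + pm I2 I f a (c x)) v = e1 (th 𝓘(ℝ, ℝ) (fun r => t (c r)) x) 1 +
      e1 (a (f (c x))) (mf 𝓘(ℝ, ℝ) I (fun r => f (c r)) x 1) := by
  have d := hc.differentiableAt.mdifferentiableAt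
  have e : mf 𝓘(ℝ, ℝ) I2 c x 1 = v := by rw [mf_eq_fderiv, fderiv_apply_one_eq_deriv, hc.deriv]
  rw [Num57.e1_add, ← pm_th ht d, pm_apply, pm_apply, e1_pb, e1_pb,
    show (fun r => f (c r)) = f ∘ c from rfl, mf_comp (hf.mdifferentiableAt ne0) d, ← e]
  rfl

/-- **the curvature integral is `2 π` times the degree** -/
theorem Deg.flx {L : Ln E M κ} {U : Set M} (h : Deg (fun θ s => L.p (γ θ s)) n) (hU : IsOpen U)
    (hL : L.On I U) (sm : ContMDiff I2 I ∞ (un γ)) (h0 : ∀ θ, γ θ 0 = γ 0 0)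
    (h1 : ∀ θ, γ θ 1 = γ 0 1) (hγ : ∀ θ s, γ θ s ∈ U) : flx I γ (L.F I) = 2 * π * n := by
  classical
  obtain ⟨t₁, t₂, u₁, u₂, z₁, z₂, e⟩ := h
  have hf : Mp I2 I univ U (un γ) := ⟨fun y _ => sm y, fun _ _ => hγ _ _⟩
  have hL' := hL.pull hf
  have o₁ : IsOpen {y : ℝ × ℝ | y.2 < 1} := isOpen_lt continuous_snd continuous_const
  have o₂ : IsOpen {y : ℝ × ℝ | 0 < y.2} := isOpen_lt continuous_const continuous_snd
  let β : (UnitAddCircle → ℝ → Matrix κ Unit ℂ) → ℝ × ℝ → Ext (ℝ × ℝ) :=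
    fun t => th I2 (un t) + pm I2 I (un γ) L.a
  let K : ℝ × ℝ → ℝ := fun y => e2 (pm I2 I (un γ) (L.F I) y) (1, 0) (0, 1)
  have k : ∀ {t O}, IsOpen O → Uni I2 (fun _ => 1) (un fun θ s => L.p (γ θ s)) (un t) O → ∀ y ∈ O,
      (∀ v, ContDiffAt ℝ ∞ (fun z => e1 (β t z) v) y) ∧
      K y = pd (1, 0) (fun z => e1 (β t z) (0, 1)) y - pd (0, 1) (fun z => e1 (β t z) (1, 0)) y :=
    fun {t O} hO u y hy => by
      have f : (L.pull I2 I (un γ)).Fr I2 (un t) (β t) O := ⟨u, fun _ _ => rfl⟩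
      have s := f.sm_fr hO (hL'.sa.mono (subset_univ _)) y hy
      have d := eventually_of_mem (hO.mem_nhds hy) (f.dg_fr (hL'.dg.mono (subset_univ _)))
      refine ⟨fun v => (fsm_e1 s d (sm_cv v y)).contDiffAt, ?_⟩
      rw [← e2_dM_sq s d, ← f.F_fr hO (hL'.sa.mono (subset_univ _)) hy,
        hL.F_pull hU isOpen_univ hf (mem_univ y)]
  have ov : ∀ y : ℝ × ℝ, 0 < y.2 → y.2 < 1 → ∀ v,
      e1 (β t₁ y) v = e1 (β t₂ y) v - 2 * π * n * v.1 := fun y a b v => by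
    let g : ℝ × ℝ → Circle := fun y => AddCircle.toCircle (y.1 : UnitAddCircle)
    have e2 : th I2 (un t₂) y = th I2 (un t₁) y + (n : ℝ) • ang I2 g y := by
      rw [← ang_zpow (cm_tc y), th_congr (u' := fun z => un t₁ z * sc (g ^ n) z)
        (eventually_of_mem ((o₂.inter o₁).mem_nhds ⟨a, b⟩) fun z hz =>
          (e _ _ hz.1 hz.2).trans (RS.msc _ _ _).symm)]
      exact th_trans (msm_sc (cm_zpow (cm_tc y) n)) (u₁.sm y b) (piso_sc _ _) (u₁.iso y b)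
    have e3 : e1 (ang I2 g y) v = 2 * π * v.1 := by
      have c : ContDiff ℝ ∞ fun y : ℝ × ℝ => 2 * π / 1 * y.1 := contDiff_const.mul contDiff_fst
      refine (congrArg (e1 · v) (ang_exp c.contMDiff.contMDiffAt)).trans
        ((e1_df _ y fun _ => v).trans ?_)
      rw [dv_pd, pd, ((hasFDerivAt_fst (𝕜 := ℝ) (p := y)).const_mul _).fderiv]
      simp
    simp only [β, Pi.add_apply, e2, Num57.e1_add, Num57.e1_smul, e3]
    ring
  let A : ℝ × ℝ → ℝ × ℝ → ℝ := fun v y =>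
    if y.2 < 1 then e1 (β t₁ y) v else e1 (β t₂ y) v - 2 * π * n * v.1
  have a₁ : ∀ v y, y.2 < 1 → A v =ᶠ[𝓝 y] fun z => e1 (β t₁ z) v := fun v y hy =>
    eventually_of_mem (o₁.mem_nhds hy) fun z hz => if_pos hz
  have a₂ : ∀ v y, 0 < y.2 → A v =ᶠ[𝓝 y] fun z => e1 (β t₂ z) v - 2 * π * n * v.1 := fun v y hy =>
    eventually_of_mem (o₂.mem_nhds hy) fun z hz => by
      by_cases b : z.2 < 1
      exacts [(if_pos b).trans (ov z hz b v), if_neg b]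
  have kA : ∀ y, (∀ v, ContDiffAt ℝ ∞ (A v) y) ∧
      K y = pd (1, 0) (A (0, 1)) y - pd (0, 1) (A (1, 0)) y := fun y => by
    rcases lt_or_ge y.2 1 with b | b
    · exact ⟨fun v => ((k o₁ u₁ y b).1 v).congr_of_eventuallyEq (a₁ v y b), by
        rw [Hol14.pd_congr (a₁ _ y b), Hol14.pd_congr (a₁ _ y b), (k o₁ u₁ y b).2]⟩
    · have b' := one_pos.trans_le b
      have c := k o₂ u₂ y b'
      refine ⟨fun v => ((c.1 v).sub contDiffAt_const).congr_of_eventuallyEq (a₂ v y b'), ?_⟩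
      rw [Hol14.pd_congr (a₂ _ y b'), Hol14.pd_congr (a₂ _ y b'), c.2]
      simp only [pd, fderiv_sub_const]
  have cA : ∀ v, Cd (A v) := fun v => contDiff_iff_contDiffAt.2 fun y => (kA y).1 v
  have cl : ContDiff ℝ ∞ fun y : ℝ × ℝ => 2 * π * n * y.2 := contDiff_const.mul contDiff_snd
  have hz : ∀ {t : UnitAddCircle → ℝ → Matrix κ Unit ℂ} {s : ℝ} (θ : ℝ), MSm I2 (un t) (θ, s) →
      (∀ θ, t θ s = t 0 s) → (∀ θ, γ θ s = γ 0 s) → e1 (β t (θ, s)) (1, 0) = 0 :=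
    fun {t s} θ a b c => by
      refine (e1_line ((hasDerivAt_id θ).prodMk (hasDerivAt_const θ s)) a (sm _) L.a).trans ?_
      simp only [un, id, b, c, th_const, mf_const, Pi.zero_apply, zero_apply]
      simp [Num57.e1_eq]
  have hp : ∀ {t : UnitAddCircle → ℝ → Matrix κ Unit ℂ} {s : ℝ}, (∀ θ, MSm I2 (un t) (θ, s)) →
      e1 (β t (1, s)) (0, 1) = e1 (β t (0, s)) (0, 1) := fun {t s} a => by
    have := fun θ => e1_line ((hasDerivAt_const s θ).prodMk (hasDerivAt_id s)) (a θ) (sm _) L.a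
    refine (this 1).trans (Eq.trans ?_ (this 0).symm)
    simp only [un, AddCircle.coe_period, AddCircle.coe_zero]
  have g := Hol14.green (S := fun y => A (1, 0) y + 2 * π * n * y.2) (T := A (0, 1))
    ((cA _).add cl) (cA _) (fun θ => by simp [A, hz θ (u₁.sm _ (by simp)) z₁ h0])
    (fun θ => by simp [A, hz θ (u₂.sm _ (by simp)) z₂ h1]) fun s => by
      by_cases b : s < 1
      · simp only [A, if_pos b]
        exact hp fun θ => u₁.sm _ b
      · simp only [A, if_neg b]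
        rw [hp fun θ => u₂.sm _ (one_pos.trans_le (not_lt.1 b))]
  have cK : Continuous K := by
    rw [funext fun y => (kA y).2]
    exact ((cA _).pd _).continuous.sub ((cA _).pd _).continuous
  have e4 : ∀ y, pd Hol14.e1 (A (0, 1)) y - pd Hol14.e2 (fun y => A (1, 0) y + 2 * π * n * y.2) y =
      K y - 2 * π * n := fun y => by
    rw [Hol14.pd_add ((cA _).df y) (Cd.df cl y), (kA y).2, pd.eq_1 _ (fun y : ℝ × ℝ => _ * y.2),
      ((hasFDerivAt_snd (𝕜 := ℝ) (p := y)).const_mul _).fderiv]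
    simp [sub_sub]
  have i1 : ∀ θ, ∫ s in (0 : ℝ)..1, (K (θ, s) - 2 * π * n) = (∫ s in (0 : ℝ)..1, K (θ, s)) - 2 * π * n :=
    fun θ => by
      rw [intervalIntegral.integral_sub (Continuous.intervalIntegrable (by fun_prop) _ _)
        intervalIntegrable_const]
      simp
  simp only [e4, i1] at g
  rw [intervalIntegral.integral_sub ((intervalIntegral.continuous_parametric_intervalIntegral_of_continuous'
    (f := fun t s => K (t, s)) cK _ _).intervalIntegrable _ _) intervalIntegrable_const] at g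
  rw [flx_eq]
  simpa [sub_eq_zero] using g

theorem deg_one : Deg (fun _ _ => (1 : Matrix Unit Unit ℂ)) 0 :=
  ⟨fun _ _ => 1, fun _ _ => 1, ⟨fun _ _ => MSm.const _, fun _ _ => Prj.one.refl⟩,
    ⟨fun _ _ => MSm.const _, fun _ _ => Prj.one.refl⟩, fun _ => rfl, fun _ => rfl, by simp⟩

/-- exact forms have no flux -/
theorem flx_dM {b : M → Ext E} {U : Set M} (hU : IsOpen U) (hb : Dr59.Sm I U b) (hd : Dg 1 U b)
    (sm : ContMDiff I2 I ∞ (un γ)) (h0 : ∀ θ, γ θ 0 = γ 0 0) (h1 : ∀ θ, γ θ 1 = γ 0 1)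
    (hγ : ∀ θ s, γ θ s ∈ U) : flx I γ (dM I b) = 0 :=
  (flx_congr fun θ s => (F_triv hU hb hd (hγ θ s)).symm).trans
    ((Deg.flx (L := triv b) deg_one hU (on_triv hb hd) sm h0 h1 hγ).trans (by simp))

section world
open M An

/-- the flux of the line on `Z c` through the transported cut -/
theorem MOK.flx_lns {X : Mf 4} {A κ : Type} [Fintype A] [Fintype κ] {Mk : Mark X A κ} {W : World Mk}
    {lam : Type} [Fintype lam] [DecidableEq lam] {N : ML Mk lam} (Λ : Lns W N)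
    {k : Cut X.M (lam ⊕ lam)} {K : Set X.M} {o : X.M → Ext X.E} {l : X.M → En (lam ⊕ lam)}
    {il : En (lam ⊕ lam)} (h : MOK X.I k o l il K) (d : Deg (fun θ s => N.p (k.γ θ s)) n)
    (m c : Mk.Cl) (hK : Disjoint K (Mk.sys.cores c.1)) :
    Deg (fun θ s => (Λ.Λ m c).p ((cutZ Λ m c k).γ θ s)) n ∧ ∀ p,
      flx (W.Z c).I (cutZ Λ m c k).γ (((Λ.Λ m c).ln p).F (W.Z c).I) = 2 * π * n := by
  have hs : K ⊆ (W.φ c).source := fun _ hx => (W.mem_src c).2 (disjoint_left.1 hK hx)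
  have d' := d.uni h.sm (fun θ => h.h0 θ 0 le_rfl) (fun θ => h.h1 θ 1 le_rfl) h.sub
    ((Λ.uni m c).mono hs)
  exact ⟨d', fun p => Deg.flx (L := (Λ.Λ m c).ln p) d' isOpen_univ ((Λ.Λ m c).ok p)
    (fun y => ((W.φ c).contMDiffOn_toFun.contMDiffAt ((W.φ c).open_source.mem_nhds
      (hs (h.sub _ _)))).comp y (h.sm y)) (fun θ => congrArg _ (h.h0 θ 0 le_rfl))
    (fun θ => congrArg _ (h.h1 θ 1 le_rfl)) fun _ _ => trivial⟩

end world

/-! ### rods and words -/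

variable {EN HN : Type} [NormedAddCommGroup EN] [NormedSpace ℝ EN] [FiniteDimensional ℝ EN]
  [TopologicalSpace HN] {IN : ModelWithCorners ℝ EN HN} [IN.Boundaryless]
  {N : Type} [TopologicalSpace N] [ChartedSpace HN N] [IsManifold IN ∞ N] [T2Space N]
  {T : Tb IN N} {v : ℝ → Z2} {a b : Z2} {k : ℤ} {c₁ c₂ : ℝ} [DecidableEq κ] {m : ℝ → ℤ} {η₁ η₂ : Z2}
  {U : Set (X T v)} {p : X T v → Matrix κ κ ℂ} {σ : X T v → Matrix κ Unit ℂ}

/-- **the degree of a toric line on the sphere of a rod** -/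
theorem RS.deg (S : RS v a b k c₁ c₂) (hU : IsOpen U) (hγ : ∀ θ s, S.γ T θ s ∈ U)
    (h : TL T v m p σ U) (h₁ : ∀ t ∈ Ico c₁ c₂, Rep v m η₁ t) (h₂ : ∀ t ∈ Ioc c₁ c₂, Rep v m η₂ t) :
    Deg (fun θ s => p (S.γ T θ s)) (dot (η₁ - η₂) a) := by
  let O : Z2 → Set (X T v) := fun η => U ∩ (T.tor v ∩ T.time v ⁻¹' {t | Rep v m η t})
  have o : ∀ η, IsOpen (O η) := fun η => hU.inter (T.isOpen_tor.inter
    (isOpen_setOfPred_eventually_nhds.preimage T.continuous_time))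
  have f := fun η => (h.mono (O' := O η) inter_subset_left).exists_fr (o η)
    (tl_chi (fun _ hx => hx.2.1) fun _ hx _ => hx.2.2)
  obtain ⟨S₁, u₁, e₁⟩ := f η₁
  obtain ⟨S₂, u₂, e₂⟩ := f η₂
  have tr := fun θ s => tor_of_not_off (S.not_off T θ s)
  have g₁ : ∀ θ s, s < 1 → S.γ T θ s ∈ O η₁ := fun θ s e => ⟨hγ θ s, tr θ s, h₁ _ (S.time_lt T e)⟩
  have g₂ : ∀ θ s, 0 < s → S.γ T θ s ∈ O η₂ := fun θ s e => ⟨hγ θ s, tr θ s, h₂ _ (S.time_pos T e)⟩
  refine ⟨fun θ s => S₁ (S.γ T θ s), fun θ s => S₂ (S.γ T θ s),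
    u₁.comp ⟨fun y _ => S.sm_γ T y, fun y hy => g₁ _ _ hy⟩,
    u₂.comp ⟨fun y _ => S.sm_γ T y, fun y hy => g₂ _ _ hy⟩, fun θ => congrArg S₁ (S.γ_zero T le_rfl),
    fun θ => congrArg S₂ (S.γ_one T le_rfl), fun θ s s0 s1 => ?_⟩
  have x1 := g₁ θ s s1
  have x2 := g₂ θ s s0
  have rz := Rep.sub_zero x1.2.2 x2.2.2
  have q1 := r₁_pos (sub_pos.2 S.lt) s0
  have z1 : (m₁ (c₂ - c₁) θ s).1 ≠ 0 :=
    mul_ne_zero (Complex.ofReal_ne_zero.2 q1.ne') (Circle.coe_ne_zero _)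
  have db : dot (η₁ - η₂) b = 0 := (dot_pm (Jr.pm (Jv.right (S.left (S.time_lt T s1))
    (S.time_pos T s0).1))).1 rz.self_of_nhds
  have cx : chi T v (η₁ - η₂) (S.γ T θ s) = θ.toCircle ^ dot (η₁ - η₂) a := by
    rw [S.γ_lt T s1, T.vtx_eq_R _ (S.mem₁ s1) z1, chi_rod0 _ (hR_mem (S.mem₁ s1) z1) db]
    exact congrArg (· ^ _) (dir_mul q1 _)
  rw [← cx]
  refine eq_of_dense dense_off (g := fun y => (chi T v (η₁ - η₂) y : ℂ) • S₁ y)
    (u₂.sm _ x2).continuousAt ((cm_coe (csm_chi x1.2.1 fun _ => rz)).continuousAt.smul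
      (u₁.sm _ x1).continuousAt) (eventually_of_mem (((o _).inter (o _)).mem_nhds ⟨x1, x2⟩)
        fun y hy o => ?_)
  have := (RS.msc _ _ _).symm.trans (((e₂ y hy.2 o).trans (e₁ y hy.1 o).symm).trans (RS.msc _ _ _))
  rw [← sub_add_cancel η₁ η₂, chi_add o, mul_comm, Circle.coe_mul, mul_smul] at this
  exact smul_right_injective _ (Circle.coe_ne_zero _) this

open Wd38 (sq dg)

/-- **the degree on the sphere of the rod on the slots `x, …, y` of a word** -/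
theorem deg_wd {s : ℤ → Z2} {n : ℤ → ℤ} {x y : ℤ} (hxy : x ≤ y)
    (hu : Rod53.Uni (s (x - 1)) (s x)) (hu' : Rod53.Uni (s y) (s (y + 1)))
    (hm : ∀ j, x ≤ j → j ≤ y → s j = s x ∧ n j = n x ∨ s j = -s x ∧ n j = -n x)
    {U : Set (X T (wd s))} (hU : IsOpen U)
    (hs : ∀ z ∉ off T (wd s), T.time (wd s) z ∈ Icc (x : ℝ) (y + 1) → z ∈ U)
    {p : X T (wd s) → Matrix κ κ ℂ} {σ : X T (wd s) → Matrix κ Unit ℂ}
    (h : TL T (wd s) (wm s n) p σ U) {k : ℤ}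
    (S : RS (wd s) (Rod53.dt (s (x - 1)) (s x) • s (x - 1)) (s x) k x (y + 1)) :
    Deg (fun θ r => p (S.γ T θ r))
      (dg (s (x - 1)) (s x) (s (y + 1)) (n (x - 1)) (n x) (n (y + 1))) ∧
    Deg (fun θ r => p (S.neg.γ T θ r))
      (-dg (s (x - 1)) (s x) (s (y + 1)) (n (x - 1)) (n x) (n (y + 1))) := by
  have pm : ∀ j, x ≤ j → j ≤ y → PM (s j) (s x) := fun j a b => (hm j a b).imp And.left And.left
  have hu'' := (pm y hxy le_rfl).symm.uni hu'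
  have mid : ∀ η, dot η (s x) = n x → ∀ j, x ≤ j → j ≤ y → dot η (s j) = n j := fun η e j a b => by
    rcases hm j a b with k | k <;> rw [k.1, k.2]
    exacts [e, by rw [dot_neg', e]]
  obtain ⟨η₁, a1, a2⟩ : ∃ η, dot η (s (x - 1)) = n (x - 1) ∧ dot η (s x) = n x :=
    ⟨_, dual_left hu _ _, dual_right hu _ _⟩
  obtain ⟨η₂, b1, b2⟩ : ∃ η, dot η (s x) = n x ∧ dot η (s (y + 1)) = n (y + 1) :=
    ⟨_, dual_left hu'' _ _, dual_right hu'' _ _⟩
  have h₁ : ∀ t ∈ Ico (x : ℝ) (y + 1), Rep (wd s) (wm s n) η₁ t := fun t ht =>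
    rep_wd (i := x - 1) (j := y) (fun j a b => by
      rcases a.eq_or_lt with rfl | k
      exacts [a1, mid _ a2 j (by omega) b]) ⟨by push_cast; linarith [ht.1], ht.2⟩
  have h₂ : ∀ t ∈ Ioc (x : ℝ) (y + 1), Rep (wd s) (wm s n) η₂ t := fun t ht =>
    rep_wd (i := x) (j := y + 1) (fun j a b => by
      rcases b.eq_or_lt with rfl | k
      exacts [b2, mid _ b1 j a (by omega)]) ⟨ht.1, by push_cast; linarith [ht.2]⟩
  have e := dot_rs hu hu'' (a2.trans b1.symm)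
  rw [a1, a2, b2] at e
  rw [← e, ← dot_neg']
  exact ⟨S.deg hU (fun θ r => hs _ (S.not_off T θ r) (S.time_mem T θ r)) h h₁ h₂,
    S.neg.deg hU (fun θ r => hs _ (S.neg.not_off T θ r) (S.neg.time_mem T θ r)) h h₁ h₂⟩

end Crest.Agent.X212.Cut54
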