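import Crest.Agent.X212.Cut54.Rod
import Crest.Agent.X212.An.Syn
import Crest.Agent.X212.M.Lit

/-!
# Row 212, CUT-DAT, part 7: cuts on marks and worlds

`MOK.tp` (transport `Tp.of`), `MOK.cutIn`, `MOK.lay`, `MOK.lns`, `MOK.ok_lns`, `rel_tp`.
-/

set_option autoImplicit false
set_option linter.unusedSectionVars false
noncomputable section
open scoped Manifold ContDiff Topology
open Set Filter Function
open Crest.Agent.R208.F Crest.Agent.X212.Pj41 Crest.Agent.X212.Int54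
open Crest.Agent.X212.Line51 (rl iL Uni)

namespace Crest.Agent.X212.Cut54
open An

section gen
variable {E : Type} [NormedAddCommGroup E] [NormedSpace ℝ E] [FiniteDimensional ℝ E]
  {HM : Type} [TopologicalSpace HM] {I : ModelWithCorners ℝ E HM} [I.Boundaryless]
  {M : Type} [TopologicalSpace M] [ChartedSpace HM M] [IsManifold I ∞ M] [T2Space M]
  {E' : Type} [NormedAddCommGroup E'] [NormedSpace ℝ E'] [FiniteDimensional ℝ E']
  {HM' : Type} [TopologicalSpace HM'] {I' : ModelWithCorners ℝ E' HM'} [I'.Boundaryless]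
  {M' : Type} [TopologicalSpace M'] [ChartedSpace HM' M'] [IsManifold I' ∞ M'] [T2Space M']
  {lam lam' : Type} [Fintype lam] [Fintype lam'] {o : M → Ext E} {o' : M' → Ext E'} {K Ω : Set M}

theorem xt_eq {N : Type} [NormedAddCommGroup N] [NormedSpace ℝ N] (φ : PartialDiffeomorph I I' M M' ∞)
    (f : M → N) : xt φ f = φ.target.indicator (f ∘ φ.toPartialEquiv.symm) := by
  funext z
  simp only [xt, indicator]
  rfl

theorem push_eq (φ : PartialDiffeomorph I I' M M' ∞) (v : M → CL (Eu lam) (Eu lam')) (k : Cut M lam) :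
    push φ v k = (Tp.of φ.toPartialEquiv v).cut k := by
  simp only [push, xt_eq]
  rfl

theorem MOK.congr {k : Cut M lam} {l l' : M → En lam} {il : En lam} {o₁ : M → Ext E}
    (h : MOK I k o l il K) (ho : SameOn o o₁ K) (hl : EqOn l' l K) : MOK I k o₁ l' il K :=
  ⟨h.cpt, h.sm, h.h0, h.h1, h.sub, h.sw, h.se, fun θ s => by
    obtain ⟨α, p, q, s₀, a1, a2, a3, a4, a5, a6⟩ := h.pos θ s
    rw [hl (h.sub θ s)]
    refine ⟨α, p, q, s₀, a1, a2, a3, a4, ?_, a6⟩
    have := mul_pos (ho _ (h.sub θ s)) a5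
    by_contra! e
    nlinarith [mul_nonneg (mul_self_nonneg (tp E (o (k.γ θ s)))) (neg_nonneg.2 e)]⟩

theorem MOK.supp {k : Cut M lam} {l : M → En lam} {il : En lam} (h : MOK I k o l il K) :
    k.supp ⊆ K := by
  rintro _ ⟨y, rfl⟩
  exact h.sub _ _

theorem MOK.cutIn [MeasurableSpace E] [BorelSpace E] [MeasurableSpace M] [BorelSpace M]
    [SecondCountableTopology M] {k : Cut M lam} {l : M → En lam} {il : En lam}
    (h : MOK I k o l il K) (hs : K ⊆ Ω) : CutIn I Ω k := by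
  have a : ∀ {N : Type} [NormedAddCommGroup N] [NormedSpace ℝ N] {f : M → N}, Cs I K f →
      tsupport f ⊆ Ω := fun hf =>
    (closure_minimal (support_subset_iff'.2 hf.2) h.cpt.isClosed).trans hs
  have b : ∀ {f : M → ℝ}, Cs I K f → Wrd81.Tf I Ω f := fun hf =>
    ⟨hf.1, HasCompactSupport.intro h.cpt hf.2, a hf⟩
  exact ⟨h.supp.trans hs, fun d hd => ⟨b (h.sw d hd).1, b (h.sw d hd).2.1, b (h.sw d hd).2.2⟩,
    fun d hd => ⟨⟨(h.se d hd).1.1, HasCompactSupport.intro h.cpt (h.se d hd).1.2, a (h.se d hd).1⟩,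
      b (h.se d hd).2.1, b (h.se d hd).2.2⟩⟩

variable [DecidableEq lam] [DecidableEq lam']

/-- **transport along a positive partial diffeomorphism and an isometry of lines** -/
theorem MOK.tp {k : Cut M (lam ⊕ lam)} {p : M → Matrix lam lam ℂ}
    (h : MOK I k o (fun x => rl (p x)) (iL lam) K) (φ : PartialDiffeomorph I I' M M' ∞)
    (hs : K ⊆ φ.source) (ho : SameOn o (Dr59.pm I I' φ o') K) {q : M' → Matrix lam' lam' ℂ}
    {u : M → Matrix lam' lam ℂ} (hu : Uni I p (fun x => q (φ x)) u K) :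
    MOK I' ((Tp.of φ.toPartialEquiv fun x => rl (u x)).cut k) o' (fun x => rl (q x)) (iL lam')
      (φ '' K) :=
  push_eq φ (fun x => rl (u x)) k ▸ h.push hs ho (fun x hx => Line51.fsm_rl (hu.sm x hx))
    fun x hx => li_rl (hu.iso x hx)

end gen

/-- transports of corresponding cuts correspond -/
theorem rel_tp {M M' Z Z' lam lam' mu mu' : Type} [Fintype lam] [Fintype lam'] [Fintype mu]
    [Fintype mu'] [TopologicalSpace M] [TopologicalSpace Z] {k : Cut M lam} {k' : Cut M' lam'}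
    {O : Set M} {ψ : M → M'} {u : M → CL (Eu lam) (Eu lam')} (r : k.Rel k' O ψ u)
    (φ : PartialEquiv M Z) (φ' : PartialEquiv M' Z') {v : M → CL (Eu lam) (Eu mu)}
    {v' : M' → CL (Eu lam') (Eu mu')} {U : Set Z} {Ψ : Z → Z'} {w : Z → CL (Eu mu) (Eu mu')}
    (hs : φ '' k.supp ⊆ U) (hγ : ∀ x ∈ k.supp, Ψ (φ x) = φ' (ψ x))
    (hU : ∀ z ∈ U, (z ∉ φ.target ∧ Ψ z ∉ φ'.target) ∨ ∃ x ∈ O, x ∈ φ.source ∧ φ x = z ∧
      ψ x ∈ φ'.source ∧ Ψ z = φ' (ψ x) ∧ ∀ a a', trn (u x) a' = trn (u x) (u x a) →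
        trn (w z) (v' (ψ x) a') = trn (w z) (w z (v x a))) :
    ((Tp.of φ v).cut k).Rel ((Tp.of φ' v').cut k') U Ψ w := by
  have k1 : ∀ {f : M → ℝ} {f' : M' → ℝ}, EqOn (f' ∘ ψ) f O →
      EqOn ((Tp.of φ' v').f f' ∘ Ψ) ((Tp.of φ v).f f) U := fun e z hz => by
    rcases hU z hz with ⟨a, b⟩ | ⟨x, a, b, rfl, c, d, -⟩
    · exact (indicator_of_notMem b _).trans (indicator_of_notMem a _).symm
    · simp only [Tp.of, comp_apply, d, indicator_of_mem (φ.map_source b),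
        indicator_of_mem (φ'.map_source c), φ.left_inv b, φ'.left_inv c]
      exact e a
  refine ⟨?_, fun θ s => ?_, ?_, ?_⟩
  · rintro _ ⟨y, rfl⟩
    exact hs ⟨_, ⟨y, rfl⟩, rfl⟩
  · exact (congrArg φ' (r.γ θ s)).trans (hγ _ ⟨(θ, s), rfl⟩).symm
  · exact List.forall₂_map_left_iff.2 (List.forall₂_map_right_iff.2
      (r.w.imp fun _ _ e => ⟨k1 e.1, k1 e.2.1, k1 e.2.2⟩))
  · refine List.forall₂_map_left_iff.2 (List.forall₂_map_right_iff.2
      (r.e.imp fun _ _ e => ⟨fun z hz => ?_, k1 e.2.1, k1 e.2.2⟩))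
    rcases hU z hz with ⟨a, b⟩ | ⟨x, a, b, rfl, c, d, f⟩
    · simp only [Tp.of, indicator_of_notMem a, indicator_of_notMem b, map_zero]
    · simp only [Tp.of, d, indicator_of_mem (φ.map_source b), indicator_of_mem (φ'.map_source c),
        φ.left_inv b, φ'.left_inv c]
      exact f _ _ (e.1 x a)

/-- the line condition of `rel_tp` for isometries with `w v = v' u` -/
theorem sq_rl {a b c d : Type} [Fintype a] [Fintype b] [Fintype c] [Fintype d] [DecidableEq a]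
    [DecidableEq b] [DecidableEq c] [DecidableEq d] {u : Matrix b a ℂ} {v : Matrix c a ℂ}
    {v' : Matrix d b ℂ} {w : Matrix d c ℂ} {p : Matrix a a ℂ} {p' : Matrix b b ℂ} {q : Matrix c c ℂ}
    {q' : Matrix d d ℂ} (hu : PIso u p p') (hv : PIso v p q) (hv' : PIso v' p' q') (hw : PIso w q q')
    (e : w * v = v' * u) (x : Eu (a ⊕ a)) (x' : Eu (b ⊕ b))
    (h : trn (rl u) x' = trn (rl u) (rl u x)) :
    trn (rl w) (rl v' x') = trn (rl w) (rl w (rl v x)) := by
  have k : w.conjTranspose * v' = v * u.conjTranspose := by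
    rw [← hv'.idem, ← hu.tgt, ← Matrix.mul_assoc v', ← e, ← Matrix.mul_assoc, ← Matrix.mul_assoc, hw.src,
      hv.left]
  simp only [← Line51.rl_ct, ← ContinuousLinearMap.comp_apply, ← Line51.rl_comp] at h ⊢
  rw [k, Line51.rl_comp, ContinuousLinearMap.comp_apply, h, ← ContinuousLinearMap.comp_apply,
    ← Line51.rl_comp, hu.src, hv.idem, ← Matrix.mul_assoc, hw.src, hv.left]

section world
open M

theorem MOK.lay {Z : Mf 4} {o : Z.M → Ext Z.E} {T ι : Type} [NormedAddCommGroup T]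
    [NormedSpace ℝ T] [Fintype ι] {Ω : Set (T × Z.M)} {L : Lay Z o T ι Ω} {lam : Type} [Fintype lam]
    [DecidableEq lam] (Λ : LLay L lam) {k : Cut Z.M (lam ⊕ lam)} {K : Set Z.M}
    (h : MOK Z.I k o (fun x => rl (Λ.p x)) (iL lam) K) (ho : Ori Z.I o) :
    k.OK Λ.B L.F0 ∧ ∀ t, (∀ x, (t, x) ∈ Ω) → k.OK Λ.B (L.F t) :=
  ⟨h.ok Z.dim (Λ.B_ok ho) _ (fun _ _ _ _ _ _ => rfl) (fun _ _ => rfl) rfl, fun _ ht =>
    h.ok Z.dim (Λ.B_ok ho) _ (fun x _ a b c d => by
      exact congrFun (congrFun (congrFun (congrFun (congrFun (L.ov_F ht).symm a) b) c) d) x)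
      (fun _ _ => rfl) rfl⟩

variable {X : Mf 4} {A κ : Type} [Fintype A] [Fintype κ] {Mk : Mark X A κ} {W : World Mk}
  {lam : Type} [Fintype lam] [DecidableEq lam] {N : ML Mk lam} (Λ : Lns W N)
  {k : Cut X.M (lam ⊕ lam)} {K : Set X.M}

/-- the cut on `Z c` -/
abbrev cutZ (m c : Mk.Cl) (k : Cut X.M (lam ⊕ lam)) : Cut (W.Z c).M (lam ⊕ lam) :=
  (Tp.of (W.φ c).toPartialEquiv fun x => rl (Λ.v m c x)).cut k

theorem MOK.lns (h : MOK X.I k Mk.o (fun x => rl (N.p x)) (iL lam) K) (m c : Mk.Cl)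
    (hK : Disjoint K (Mk.sys.cores c.1)) :
    MOK (W.Z c).I (cutZ Λ m c k) (W.o c) (fun z => rl ((Λ.Λ m c).p z)) (iL lam) (W.φ c '' K) :=
  have hs : K ⊆ (W.φ c).source := fun _ hx => (W.mem_src c).2 (disjoint_left.1 hK hx)
  h.tp _ hs (fun x hx => W.oφ c x (hs hx)) ((Λ.uni m c).mono hs)

/-- **the cut is admissible for all metrics of a world** -/
theorem MOK.ok_lns (h : MOK X.I k Mk.o (fun x => rl (N.p x)) (iL lam) K) (m c : Mk.Cl)
    (hK : Disjoint K (Mk.sys.cores c.1)) {p : Prm A} (hp : p ∈ Mk.O c.1) :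
    (cutZ Λ m c k).OK (Λ.B m c) (W.F m c p) :=
  ((h.lns Λ m c hK).lay _ (W.ori c)).2 p (Mark.mem_Ω _ hp)

end world

end Crest.Agent.X212.Cut54
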