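import Crest.Agent.X212.Wz78.On

/-!
# Row 212, CUT-DAT, part 1: pointwise algebra

Self-dual parts of two-tensors in an oriented orthonormal frame, their Clifford action, and the
sign of the determinant of the self-dual parts of `(ω, Re Ω, -Im Ω)` for an arbitrary metric.
-/

set_option autoImplicit false
set_option linter.unusedSectionVars false
noncomputable section
open Finset

namespace Crest.Agent.X212.Cut54
open Ind95 (eps sg E4 E4_eq)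
open Wz78 (On On0 rr vol vol_eq sum_U2)

abbrev M4 : Type := Fin 4 → Fin 4 → ℝ

/-- self-dual (`s = 1`) and anti-self-dual (`s = -1`) components -/
def v1 (s : ℝ) (W : M4) : ℝ := W 0 1 - W 1 0 + s * (W 2 3 - W 3 2)
def v2 (s : ℝ) (W : M4) : ℝ := W 0 2 - W 2 0 + s * (W 3 1 - W 1 3)
def v3 (s : ℝ) (W : M4) : ℝ := W 0 3 - W 3 0 + s * (W 1 2 - W 2 1)

/-- determinant of three vectors -/
def d3 (x1 x2 x3 y1 y2 y3 z1 z2 z3 : ℝ) : ℝ :=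
  x1 * (y2 * z3 - y3 * z2) - x2 * (y1 * z3 - y3 * z1) + x3 * (y1 * z2 - y2 * z1)

/-- determinant of the (anti-)self-dual parts -/
def dt (s : ℝ) (X Y Z : M4) : ℝ :=
  d3 (v1 s X) (v2 s X) (v3 s X) (v1 s Y) (v2 s Y) (v3 s Y) (v1 s Z) (v2 s Z) (v3 s Z)

/-- inner product of the (anti-)self-dual parts -/
def ip (s : ℝ) (X Y : M4) : ℝ := v1 s X * v1 s Y + v2 s X * v2 s Y + v3 s X * v3 s Y

theorem sq_lt {x1 x2 x3 y1 y2 y3 z1 z2 z3 a1 a2 a3 b1 b2 b3 c1 c2 c3 p q r : ℝ}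
    (hp : 0 < p) (hq : 0 < q) (hr : 0 < r)
    (xx : x1 * x1 + x2 * x2 + x3 * x3 = a1 * a1 + a2 * a2 + a3 * a3 + p)
    (yy : y1 * y1 + y2 * y2 + y3 * y3 = b1 * b1 + b2 * b2 + b3 * b3 + q)
    (zz : z1 * z1 + z2 * z2 + z3 * z3 = c1 * c1 + c2 * c2 + c3 * c3 + r)
    (xy : x1 * y1 + x2 * y2 + x3 * y3 = a1 * b1 + a2 * b2 + a3 * b3)
    (xz : x1 * z1 + x2 * z2 + x3 * z3 = a1 * c1 + a2 * c2 + a3 * c3)
    (yz : y1 * z1 + y2 * z2 + y3 * z3 = b1 * c1 + b2 * c2 + b3 * c3) :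
    d3 a1 a2 a3 b1 b2 b3 c1 c2 c3 ^ 2 < d3 x1 x2 x3 y1 y2 y3 z1 z2 z3 ^ 2 := by
  have g : ∀ x1 x2 x3 y1 y2 y3 z1 z2 z3 : ℝ, d3 x1 x2 x3 y1 y2 y3 z1 z2 z3 ^ 2 =
      d3 (x1 * x1 + x2 * x2 + x3 * x3) (x1 * y1 + x2 * y2 + x3 * y3) (x1 * z1 + x2 * z2 + x3 * z3)
        (x1 * y1 + x2 * y2 + x3 * y3) (y1 * y1 + y2 * y2 + y3 * y3) (y1 * z1 + y2 * z2 + y3 * z3)
        (x1 * z1 + x2 * z2 + x3 * z3) (y1 * z1 + y2 * z2 + y3 * z3)
        (z1 * z1 + z2 * z2 + z3 * z3) := fun _ _ _ _ _ _ _ _ _ => by simp only [d3]; ring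
  have e : d3 x1 x2 x3 y1 y2 y3 z1 z2 z3 ^ 2 = d3 a1 a2 a3 b1 b2 b3 c1 c2 c3 ^ 2 +
      (p * ((b2 * c3 - b3 * c2) ^ 2 + (b1 * c3 - b3 * c1) ^ 2 + (b1 * c2 - b2 * c1) ^ 2) +
       q * ((a2 * c3 - a3 * c2) ^ 2 + (a1 * c3 - a3 * c1) ^ 2 + (a1 * c2 - a2 * c1) ^ 2) +
       r * ((a2 * b3 - a3 * b2) ^ 2 + (a1 * b3 - a3 * b1) ^ 2 + (a1 * b2 - a2 * b1) ^ 2) +
       p * q * (c1 ^ 2 + c2 ^ 2 + c3 ^ 2) + p * r * (b1 ^ 2 + b2 ^ 2 + b3 ^ 2) +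
       q * r * (a1 ^ 2 + a2 ^ 2 + a3 ^ 2) + p * q * r) := by
    rw [g x1, xx, yy, zz, xy, xz, yz]; simp only [d3]; ring
  rw [e, lt_add_iff_pos_right]; positivity

section urb
variable (A : M4)

/-- components of `α i ⊗ α j` -/
def tn (i j : Fin 4) : M4 := fun k l => A i k * A j l

/-- `a α0 α1 + b α2 α3` -/
def wO (a b : ℝ) : M4 := fun k l => a * tn A 0 1 k l + b * tn A 2 3 k l
/-- `α0 α2 - α1 α3` -/
def wR : M4 := fun k l => tn A 0 2 k l - tn A 1 3 k l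
/-- `-(α0 α3 + α1 α2)` -/
def wI : M4 := fun k l => -(tn A 0 3 k l + tn A 1 2 k l)

def dA : ℝ := E4 fun i j k l => A 0 i * A 1 j * A 2 k * A 3 l

theorem urb1 : dt 1 (tn A 0 1) (wR A) (wI A) + dt (-1) (tn A 0 1) (wR A) (wI A) =
    -2 * dA A * (∑ k, A 0 k ^ 2 + ∑ k, A 1 k ^ 2) := by
  simp only [dt, d3, v1, v2, v3, tn, wR, wI, dA, E4_eq, Fin.sum_univ_four]; ring

theorem urb2 : dt 1 (tn A 2 3) (wR A) (wI A) + dt (-1) (tn A 2 3) (wR A) (wI A) =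
    -2 * dA A * (∑ k, A 2 k ^ 2 + ∑ k, A 3 k ^ 2) := by
  simp only [dt, d3, v1, v2, v3, tn, wR, wI, dA, E4_eq, Fin.sum_univ_four]; ring

theorem dt_neg {A : M4} {a b : ℝ} (hA : 0 < dA A) (ha : 0 < a) (hb : 0 < b) :
    dt 1 (wO A a b) (wR A) (wI A) < 0 := by
  have lin : ∀ s, dt s (wO A a b) (wR A) (wI A) =
      a * dt s (tn A 0 1) (wR A) (wI A) + b * dt s (tn A 2 3) (wR A) (wI A) := fun s => by
    simp only [dt, d3, v1, v2, v3, wO]; ring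
  have h1 : dt 1 (wO A a b) (wR A) (wI A) + dt (-1) (wO A a b) (wR A) (wI A) ≤ 0 := by
    have e1 := urb1 A
    have e2 := urb2 A
    have p1 : 0 ≤ a * (dA A * (∑ k, A 0 k ^ 2 + ∑ k, A 1 k ^ 2)) := by positivity
    have p2 : 0 ≤ b * (dA A * (∑ k, A 2 k ^ 2 + ∑ k, A 3 k ^ 2)) := by positivity
    rw [lin, lin]; nlinarith
  have h2 : dt (-1) (wO A a b) (wR A) (wI A) ^ 2 < dt 1 (wO A a b) (wR A) (wI A) ^ 2 := by
    refine sq_lt (p := 4 * (a * b) * dA A) (q := 4 * dA A) (r := 4 * dA A) (by positivity)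
      (by positivity) (by positivity) ?_ ?_ ?_ ?_ ?_ ?_ <;>
    simp only [v1, v2, v3, wO, tn, wR, wI, dA, E4_eq] <;> ring
  by_contra! h3
  nlinarith [abs_lt_of_sq_lt_sq' h2 h3]

end urb

section quat
variable {𝔸 : Type*} [Ring 𝔸] [Algebra ℝ 𝔸]

/-- quaternion units on the range of `e`, a complex structure `J` and a real structure `k` -/
structure Qt (e i1 i2 i3 J k : 𝔸) : Prop where
  ee : e * e = e
  e1 : e * i1 = i1
  e2 : e * i2 = i2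
  e3 : e * i3 = i3
  f1 : i1 * e = i1
  f2 : i2 * e = i2
  f3 : i3 * e = i3
  m11 : i1 * i1 = -e
  m22 : i2 * i2 = -e
  m33 : i3 * i3 = -e
  m12 : i1 * i2 = i3
  m21 : i2 * i1 = -i3
  m23 : i2 * i3 = i1
  m32 : i3 * i2 = -i1
  m31 : i3 * i1 = i2
  m13 : i1 * i3 = -i2
  JJ : J * J = -1
  Je : e * J = J * e
  J1 : i1 * J = J * i1
  J2 : i2 * J = J * i2
  J3 : i3 * J = J * i3
  kJ : k * J = -(J * k)
  ke : k * e = e * k
  k1 : k * i1 = i1 * k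
  k2 : k * i2 = i2 * k
  k3 : k * i3 = i3 * k

variable {e i1 i2 i3 J k : 𝔸}

theorem mu' {a b c : 𝔸} (h : a * b = c) (x : 𝔸) : a * (b * x) = c * x := by rw [← mul_assoc, h]

theorem Qt.key (h : Qt e i1 i2 i3 J k) (u1 u2 u3 a1 a2 a3 b1 b2 b3 : ℝ) (n : ℝ)
    (hn : n = u1 * u1 + u2 * u2 + u3 * u3) (p : ℝ) (hp : p = a1 * u1 + a2 * u2 + a3 * u3)
    (q : ℝ) (hq : q = b1 * u1 + b2 * u2 + b3 * u3) :
    (e - J * (u1 • i1 + u2 • i2 + u3 • i3)) * ((a1 • i1 + a2 • i2 + a3 • i3) * k +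
      (b1 • i1 + b2 • i2 + b3 • i3) * (J * k)) * (e - J * (u1 • i1 + u2 • i2 + u3 • i3)) =
    (((1 + n) * a1 - 2 * p * u1 + 2 * (u2 * b3 - u3 * b2)) • i1 +
      ((1 + n) * a2 - 2 * p * u2 + 2 * (u3 * b1 - u1 * b3)) • i2 +
      ((1 + n) * a3 - 2 * p * u3 + 2 * (u1 * b2 - u2 * b1)) • i3) * k +
    J * (((1 + n) * b1 - 2 * q * u1 - 2 * (u2 * a3 - u3 * a2)) • i1 +
      ((1 + n) * b2 - 2 * q * u2 - 2 * (u3 * a1 - u1 * a3)) • i2 +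
      ((1 + n) * b3 - 2 * q * u3 - 2 * (u1 * a2 - u2 * a1)) • i3) * k := by
  subst hn hp hq
  simp only [mul_add, add_mul, mul_sub, sub_mul, mul_assoc, smul_mul_assoc, mul_smul_comm,
    h.ke, h.k1, h.k2, h.k3, mu' h.kJ, mu' h.Je, mu' h.J1, mu' h.J2, mu' h.J3, mu' h.JJ,
    mu' h.ee, mu' h.e1, mu' h.e2, mu' h.e3, mu' h.f1, mu' h.f2, mu' h.f3, mu' h.m11, mu' h.m22,
    mu' h.m33, mu' h.m12, mu' h.m21, mu' h.m23, mu' h.m32, mu' h.m31, mu' h.m13, mul_neg, neg_mul,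
    one_mul, neg_neg, smul_neg]
  module

theorem Qt.sq (h : Qt e i1 i2 i3 J k) (c1 c2 c3 : ℝ) :
    (c1 • i1 + c2 • i2 + c3 • i3) * (c1 • i1 + c2 • i2 + c3 • i3) =
      -((c1 ^ 2 + c2 ^ 2 + c3 ^ 2) • e) := by
  simp only [mul_add, add_mul, smul_mul_assoc, mul_smul_comm, h.m11, h.m22, h.m33, h.m12, h.m21,
    h.m23, h.m32, h.m31, h.m13]
  module

/-- the compression to `U` does not vanish if the determinant is negative -/
theorem Qt.ne (h : Qt e i1 i2 i3 J k) (he : e ≠ 0) {κ : ℝ} (hκ : κ ≠ 0) (hk : e * (k * k) = κ • e)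
    {u1 u2 u3 a1 a2 a3 b1 b2 b3 : ℝ} (hu : u1 * u1 + u2 * u2 + u3 * u3 = 1)
    (hd : d3 u1 u2 u3 a1 a2 a3 b1 b2 b3 < 0) :
    (e - J * (u1 • i1 + u2 • i2 + u3 • i3)) * ((a1 • i1 + a2 • i2 + a3 • i3) * k +
      (b1 • i1 + b2 • i2 + b3 • i3) * (J * k)) * (e - J * (u1 • i1 + u2 • i2 + u3 • i3)) ≠ 0 := by
  rw [h.key _ _ _ _ _ _ _ _ _ 1 hu.symm _ rfl _ rfl]
  generalize hc1 : ((1 + 1) * a1 - _ + _ : ℝ) = c1
  generalize hc2 : ((1 + 1) * a2 - _ + _ : ℝ) = c2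
  generalize hc3 : ((1 + 1) * a3 - _ + _ : ℝ) = c3
  generalize ((1 + 1) * b1 - _ - _ : ℝ) = d1
  generalize ((1 + 1) * b2 - _ - _ : ℝ) = d2
  generalize ((1 + 1) * b3 - _ - _ : ℝ) = d3'
  have ck : ∀ c1 c2 c3 : ℝ, k * (c1 • i1 + c2 • i2 + c3 • i3) = (c1 • i1 + c2 • i2 + c3 • i3) * k :=
    fun _ _ _ => by simp only [mul_add, add_mul, smul_mul_assoc, mul_smul_comm, h.k1, h.k2, h.k3]
  have ce : ∀ c1 c2 c3 : ℝ, (c1 • i1 + c2 • i2 + c3 • i3) * e = c1 • i1 + c2 • i2 + c3 • i3 :=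
    fun _ _ _ => by simp only [add_mul, smul_mul_assoc, h.f1, h.f2, h.f3]
  have cq := h.sq c1 c2 c3
  specialize ce c1 c2 c3
  have ck1 := ck c1 c2 c3
  have ck2 := ck d1 d2 d3'
  generalize c1 • i1 + c2 • i2 + c3 • i3 = C at *
  generalize d1 • i1 + d2 • i2 + d3' • i3 = D at *
  intro h0
  have h1 : C * (k * k) + J * D * (k * k) = 0 := by
    rw [← mul_assoc, ← mul_assoc, ← add_mul, h0, zero_mul]
  have h2 : C * (k * k) - J * D * (k * k) = 0 := by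
    have := congrArg (k * ·) h0
    simp only [mul_add, mul_zero, ← mul_assoc, ck1, h.kJ, neg_mul] at this
    rwa [mul_assoc J k D, ck2, ← sub_eq_add_neg, mul_assoc C, ← mul_assoc J, mul_assoc _ k] at this
  have h3 : (2 * κ) • C = 0 := by
    have : C * (k * k) = κ • C := by rw [← ce, mul_assoc, hk, mul_smul_comm]
    rw [mul_smul, ← this, two_smul, ← add_zero (0 : 𝔸)]
    nth_rewrite 1 [← h1]
    rw [← h2]; abel
  rw [smul_eq_zero_iff_right (mul_ne_zero two_ne_zero hκ)] at h3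
  rw [h3, zero_mul, eq_comm, neg_eq_zero, smul_eq_zero_iff_left he] at cq
  have z1 : c1 = 0 := by nlinarith [sq_nonneg c1, sq_nonneg c2, sq_nonneg c3]
  have z2 : c2 = 0 := by nlinarith [sq_nonneg c1, sq_nonneg c2, sq_nonneg c3]
  have z3 : c3 = 0 := by nlinarith [sq_nonneg c1, sq_nonneg c2, sq_nonneg c3]
  have : d3 u1 u2 u3 a1 a2 a3 b1 b2 b3 = (u2 * a3 - u3 * a2) ^ 2 + (u3 * a1 - u1 * a3) ^ 2 +
      (u1 * a2 - u2 * a1) ^ 2 := by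
    simp only [d3]
    linear_combination (-a1 / 2) * (hc1.trans z1) + (-a2 / 2) * (hc2.trans z2) +
      (-a3 / 2) * (hc3.trans z3) - (a1 ^ 2 + a2 ^ 2 + a3 ^ 2) * hu
  rw [this] at hd
  exact absurd hd (not_lt.2 (by positivity))

end quat

end Crest.Agent.X212.Cut54
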