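import Crest.Agent.X212.Cut54.Alg
import Crest.Agent.X212.Wz78.Mu
import Crest.Agent.X212.An.Cut

/-!
# Row 212, CUT-DAT, part 2: the pointwise criterion for `Cut.OK.om` and `Cut.OK.q0`

`Cut.Pos k B F x`: there are covector components `α 0 .. α 3` with `o(α) > 0`,
`∑ f dg ∧ dh = a α01 + b α23` and `∑ dg ∧ dh ⊗ s = (α02 - α13) ⊗ s₀ - (α03 + α12) ⊗ i s₀`.
-/

set_option autoImplicit false
set_option linter.unusedSectionVars false
noncomputable section
open scoped Manifold ContDiff Topology InnerProductSpace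
open Finset

namespace Crest.Agent.X212.Cut54
open Ind95 (eps sg E4 E4_eq)
open Wz78 An

section idx
variable {ι : Type} [Fintype ι]

/-- components of a two-tensor in the frame `U` -/
def cW (U : Fin 4 → ι → ℝ) (w : ι → ι → ℝ) : M4 := fun i j => ∑ a, ∑ b, U i a * U j b * w a b

/-- the self-dual projection in an oriented orthonormal frame -/
def sdX (W : M4) : M4 := fun i j => (W i j - W j i + ∑ k, ∑ l, (eps i j k l : ℝ) * W k l) / 4

theorem cW_tn (U : Fin 4 → ι → ℝ) (α : Fin 4 → ι → ℝ) (i j : Fin 4) :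
    cW U (fun a b => α i a * α j b) = tn (fun i k => ∑ a, U k a * α i a) i j := by
  funext k l
  simp only [cW, tn, sum_mul_sum]
  exact sum_congr rfl fun _ _ => sum_congr rfl fun _ _ => by ring

theorem cW_add (U : Fin 4 → ι → ℝ) (w w' : ι → ι → ℝ) (r s : ℝ) :
    cW U (fun a b => r * w a b + s * w' a b) = fun k l => r * cW U w k l + s * cW U w' k l := by
  funext k l
  simp only [cW, mul_sum, ← sum_add_distrib]
  exact sum_congr rfl fun _ _ => sum_congr rfl fun _ _ => by ring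

theorem cW_alt (U : Fin 4 → ι → ℝ) {w w' : ι → ι → ℝ} (h : ∀ a b, w a b - w b a = w' a b - w' b a)
    (k l : Fin 4) : cW U w k l - cW U w l k = cW U w' k l - cW U w' l k := by
  have : ∀ w : ι → ι → ℝ, cW U w k l - cW U w l k = ∑ a, ∑ b, U k a * U l b * (w a b - w b a) :=
    fun w => by
      rw [cW, cW, sum_comm (f := fun a b => U l a * U k b * w a b)]
      simp only [← sum_sub_distrib]
      exact sum_congr rfl fun _ _ => sum_congr rfl fun _ _ => by ring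
  simp only [this, h]

theorem sdX_sq (W : M4) :
    4 * ∑ i, ∑ j, sdX W i j * sdX W i j = v1 1 W ^ 2 + v2 1 W ^ 2 + v3 1 W ^ 2 := by
  simp [sdX, Fin.sum_univ_four, eps, sg, v1, v2, v3]; ring

variable {𝔸 : Type*} [Ring 𝔸] [Algebra ℝ 𝔸]

def i1 (γ : Fin 4 → 𝔸) : 𝔸 := (1 / 2 : ℝ) • (γ 0 * γ 1 + γ 2 * γ 3)
def i2 (γ : Fin 4 → 𝔸) : 𝔸 := (1 / 2 : ℝ) • (γ 0 * γ 2 - γ 1 * γ 3)
def i3 (γ : Fin 4 → 𝔸) : 𝔸 := (1 / 2 : ℝ) • (γ 0 * γ 3 + γ 1 * γ 2)

variable {γ : Fin 4 → 𝔸} {p J k : 𝔸}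

theorem sdX_cl (D : Ind95.Cl (0 : 𝔸 →ₗ[ℝ] ℝ) γ p) (W : M4) :
    ∑ i, ∑ j, sdX W i j • (γ i * γ j) = v1 1 W • i1 γ + v2 1 W • i2 γ + v3 1 W • i3 γ := by
  simp [sdX, Fin.sum_univ_four, eps, sg, v1, v2, v3, i1, i2, i3, D.anti 1 0 (by decide),
    D.anti 2 0 (by decide), D.anti 3 0 (by decide), D.anti 2 1 (by decide), D.anti 3 1 (by decide),
    D.anti 3 2 (by decide)]
  module

theorem qt_cl (D : Ind95.Cl (0 : 𝔸 →ₗ[ℝ] ℝ) γ p) (JJ : J * J = -1) (Jp : J * p = p * J)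
    (Jγ : ∀ i, J * γ i = γ i * J) (kJ : k * J = -(J * k)) (kp : k * p = p * k)
    (kγ : ∀ i, k * γ i = γ i * k) :
    Qt ((1 / 2 : ℝ) • (p - Ind95.om γ)) (i1 γ) (i2 γ) (i3 γ) J k := by
  have a10 := D.anti 1 0 (by decide)
  have a20 := D.anti 2 0 (by decide)
  have a21 := D.anti 2 1 (by decide)
  have a31 := D.anti 3 1 (by decide)
  have a32 := D.anti 3 2 (by decide)
  have J' := fun i => mu' (Jγ i)
  have k' := fun i => mu' (kγ i)
  constructor <;> first | exact JJ | exact kJ | (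
    simp only [i1, i2, i3, Ind95.om, mul_add, add_mul, mul_sub, sub_mul, mul_assoc, smul_mul_assoc,
      mul_smul_comm, D.s10, D.s20, D.s30, D.s21, D.s31, D.s32, D.sq', D.Pγ', D.sq, D.γP,
      D.Pγ, D.PP, a10, a20, a21, a31, a32, mul_neg, neg_neg, J', k', Jγ, kγ, Jp, kp] <;>
    module)

end idx

variable {E : Type} [NormedAddCommGroup E] [NormedSpace ℝ E] [FiniteDimensional ℝ E]
  [MeasurableSpace E] [BorelSpace E]
  {HM : Type} [TopologicalSpace HM] {I : ModelWithCorners ℝ E HM} [I.Boundaryless]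
  {M : Type} [TopologicalSpace M] [ChartedSpace HM M] [IsManifold I ∞ M]
  [MeasurableSpace M] [BorelSpace M] [SecondCountableTopology M] {ι : Type} [Fintype ι]
  {lam : Type} [Fintype lam] {m : Md M ι lam} {B : Base M ι lam} {x : M}

variable (B x) in
/-- the self-dual part of a two-tensor -/
def sdT (w : ι → ι → ℝ) : Eu (ι × ι) := WithLp.toLp 2 fun s => ∑ t, B.sd x s t * w t.1 t.2

section on
variable {U : Fin 4 → ι → ℝ} (h : On (fun a b => B.P a b x) (fun a b c d => B.o a b c d x) U)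
include h

theorem sdT_eq (w : ι → ι → ℝ) (s : ι × ι) :
    sdT B x w s = ∑ i, ∑ j, sdX (cW U w) i j * (U i s.1 * U j s.2) := by
  have e1 := fun a b => (h.pr a b).symm
  have e2 := h.vol
  have : ∀ a b, B.sd x s (a, b) * w a b = ∑ i, ∑ j, (U i a * U j b * w a b - U j a * U i b * w a b
      + ∑ k, ∑ l, (eps i j k l : ℝ) * (U k a * U l b * w a b)) / 4 * (U i s.1 * U j s.2) :=
    fun a b => by
      simp [Base.sd, Base.a2, Base.st, e1, e2, vol, E4_eq, Fin.sum_univ_four, eps, sg]; ring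
  simp only [sdT, Fintype.sum_prod_type, this]
  rw [sum_congr rfl fun c _ => sum_comm, sum_comm]
  refine sum_congr rfl fun i _ => ?_
  rw [sum_congr rfl fun c _ => sum_comm, sum_comm]
  refine sum_congr rfl fun j _ => ?_
  simp only [← sum_mul, ← sum_div, sum_add_distrib, sum_sub_distrib, sdX, cW, mul_sum]
  congr 3
  rw [sum_congr rfl fun c _ => sum_comm, sum_comm]
  refine sum_congr rfl fun i _ => ?_
  rw [sum_congr rfl fun c _ => sum_comm, sum_comm]

theorem norm_sdT (w : ι → ι → ℝ) :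
    (2 * ‖sdT B x w‖) ^ 2 = v1 1 (cW U w) ^ 2 + v2 1 (cW U w) ^ 2 + v3 1 (cW U w) ^ 2 := by
  rw [← sdX_sq, ← h.n2, mul_pow, EuclideanSpace.real_norm_sq_eq, Fintype.sum_prod_type]
  simp only [sdT_eq h, pow_two]; norm_num

theorem c2_sdT (H : m.OK I B) (w : ι → ι → ℝ) : m.c2 x (sdT B x w) =
    v1 1 (cW U w) • i1 (rr U fun a => m.ρ a x) + v2 1 (cW U w) • i2 (rr U fun a => m.ρ a x) +
      v3 1 (cW U w) • i3 (rr U fun a => m.ρ a x) := by
  rw [← sdX_cl (h.cl4 (H.cl x)), ← sum_U2, Md.c2, Fintype.sum_prod_type]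
  simp only [sdT_eq h]

theorem qt_md (H : m.OK I B) (s : Eu lam) : Qt (m.pp B x) (i1 (rr U fun a => m.ρ a x))
    (i2 (rr U fun a => m.ρ a x)) (i3 (rr U fun a => m.ρ a x)) m.J (m.j x s) := by
  have c : ∀ {T : En (Fin m.N)}, (∀ a, T * m.ρ a x = m.ρ a x * T) → ∀ i,
      T * rr U (fun a => m.ρ a x) i = rr U (fun a => m.ρ a x) i * T := fun h i => by
    simp only [rr, mul_sum, sum_mul, mul_smul_comm, smul_mul_assoc, h]
  rw [Md.pp, show m.om B x = _ from h.om_eq (H.cl x)]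
  exact qt_cl (h.cl4 (H.cl x)) H.Jsq (H.Jp x) (c fun a => H.Jρ a x) (H.jJ x s)
    (by rw [j_p H, H.pj]) (c fun a => H.jρ a x s)

theorem dA_eq (α : Fin 4 → ι → ℝ) : dA (fun i k => ∑ a, U k a * α i a) =
    ∑ a, ∑ b, ∑ c, ∑ d, B.o a b c d x * (α 0 a * α 1 b * α 2 c * α 3 d) := by
  have e2 := h.vol
  have : ∀ i j k l, (∑ a, U i a * α 0 a) * (∑ a, U j a * α 1 a) * (∑ a, U k a * α 2 a) *
      (∑ a, U l a * α 3 a) = ∑ a, ∑ b, ∑ c, ∑ d,
        α 0 a * α 1 b * α 2 c * α 3 d * (U i a * U j b * U k c * U l d) := fun i j k l => by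
    simp only [sum_mul, mul_sum]
    rw [sum_congr rfl fun c _ => sum_congr rfl fun _ _ => sum_comm, sum_congr rfl fun c _ => sum_comm,
      sum_comm, sum_congr rfl fun c _ => sum_congr rfl fun _ _ => sum_comm,
      sum_congr rfl fun c _ => sum_comm, sum_congr rfl fun c _ => sum_congr rfl fun _ _ => sum_comm]
    exact sum_congr rfl fun _ _ => sum_congr rfl fun _ _ => sum_congr rfl fun _ _ =>
      sum_congr rfl fun _ _ => by ring
  simp only [dA, this, Ind95.E4_sum, Ind95.E4_mul, e2, vol, mul_comm (E4 _)]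

end on

theorem sdT_add (w w' : ι → ι → ℝ) (r : ℝ) :
    sdT B x (fun a b => r * w a b + w' a b) = r • sdT B x w + sdT B x w' := by
  ext s
  simp only [sdT, PiLp.add_apply, PiLp.smul_apply, smul_eq_mul, mul_sum, ← sum_add_distrib]
  exact sum_congr rfl fun _ _ => by ring

theorem c2_alt (hB : B.OK I) (H : m.OK I B) (w : ι → ι → ℝ) :
    m.c2 x (sdT B x w) = ∑ a, ∑ b, ((w a b - w b a) / 2) • rp m B x (a, b) := by
  have e : m.c2 x (sdT B x w) = ∑ a, ∑ b, w a b • rp m B x (a, b) := by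
    rw [← Fintype.sum_prod_type' fun a b => w a b • rp m B x (a, b)]
    simp only [Md.c2, sdT, sum_smul, Prod.mk.eta, ← sd_rho hB H, smul_sum, smul_smul]
    rw [sum_comm]
    exact sum_congr rfl fun t _ => sum_congr rfl fun s _ => by rw [sd_symm hB, mul_comm]
  have e' : ∑ a, ∑ b, w b a • rp m B x (a, b) = -∑ a, ∑ b, w a b • rp m B x (a, b) := by
    rw [sum_comm]
    simp only [← sum_neg_distrib, ← smul_neg]
    refine sum_congr rfl fun a _ => sum_congr rfl fun b _ => ?_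
    rw [rp, rp, ← neg_mul, ← rb_swap]; rfl
  simp only [div_eq_inv_mul, mul_smul, ← smul_sum, sub_smul, sum_sub_distrib, e, e']
  module

theorem pp_ne (hB : B.OK I) (H : m.OK I B) (x : M) : m.pp B x ≠ 0 := fun h0 => by
  obtain ⟨U, h⟩ := b_on hB x
  have D := h.cl4 (H.cl x)
  have h1 : ∀ a, m.ρ a x * m.pm B x = 0 := fun a => by rw [← pp_rho hB H, h0, zero_mul]
  have h2 : rr U (fun a => m.ρ a x) 0 * m.pm B x = 0 := by
    simp only [rr, sum_mul, smul_mul_assoc, h1, smul_zero, sum_const_zero]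
  have h3 : m.p x = 0 := by
    have := D.sq' 0 (m.pm B x)
    rw [h2, mul_zero, p_pm H, eq_comm, neg_eq_zero] at this
    rw [← pp_add_pm (B := B), h0, this, add_zero]
  have := H.prk x
  rw [h3] at this
  simp at this

/-- the alternating part of `dg ⊗ dh` -/
def al (F : Fr I M ι) (g h : M → ℝ) (x : M) (a b : ι) : ℝ :=
  F.D a g x * F.D b h x - F.D b g x * F.D a h x

/-- the alternating part of `α ⊗ β` -/
def wg (α β : ι → ℝ) (a b : ι) : ℝ := α a * β b - α b * β a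

/-- the pointwise positivity condition -/
def Pos (k : Cut M lam) (B : Base M ι lam) (F : Fr I M ι) (x : M) : Prop :=
  ∃ (α : Fin 4 → ι → ℝ) (p q : ℝ) (s₀ : Eu lam), 0 < p ∧ 0 < q ∧ s₀ ≠ 0 ∧ B.l x s₀ = s₀ ∧
    0 < ∑ a, ∑ b, ∑ c, ∑ d, B.o a b c d x * (α 0 a * α 1 b * α 2 c * α 3 d) ∧
    (∀ a b, (k.w.map fun t => t.1 x * al F t.2.1 t.2.2 x a b).sum =
      p * wg (α 0) (α 1) a b + q * wg (α 2) (α 3) a b) ∧
    ∀ a b, (k.e.map fun t => al F t.2.1 t.2.2 x a b • B.l x (t.1 x)).sum =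
      (wg (α 0) (α 2) a b - wg (α 1) (α 3) a b) • s₀ -
        (wg (α 0) (α 3) a b + wg (α 1) (α 2) a b) • B.il s₀

variable {k : Cut M lam} {F : Fr I M ι}

theorem om_eq (k : Cut M lam) : k.om B F x =
    sdT B x fun a b => (k.w.map fun t => t.1 x * (F.D a t.2.1 x * F.D b t.2.2 x)).sum := by
  rw [Cut.om]
  induction k.w with
  | nil => ext s; simp [sdT]
  | cons t l ih => simp only [List.map_cons, List.sum_cons, ih, sdT_add]; rfl

theorem Pos.main (h : Pos k B F x) (hB : B.OK I) :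
    k.om B F x ≠ 0 ∧ ∀ m : Md M ι lam, m.OK I B → k.q0 B F m x ≠ 0 := by
  obtain ⟨α, p, q, s₀, hp, hq, h0, hl, ho, hw, he⟩ := h
  obtain ⟨U, hU⟩ := b_on hB x
  rw [← dA_eq hU] at ho
  have hd := dt_neg ho hp hq
  set A : M4 := fun i k => ∑ a, U k a * α i a
  set w : ι → ι → ℝ := fun a b => (k.w.map fun t => t.1 x * (F.D a t.2.1 x * F.D b t.2.2 x)).sum
  have a1 : ∀ i j, cW U w i j - cW U w j i = wO A p q i j - wO A p q j i := fun i j => by
    rw [cW_alt U (w' := fun a b => p * (α 0 a * α 1 b) + q * (α 2 a * α 3 b)), cW_add, cW_tn, cW_tn]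
    · rfl
    intro a b
    have : w a b - w b a = (k.w.map fun t => t.1 x * al F t.2.1 t.2.2 x a b).sum := by
      simp only [w]
      induction k.w with
      | nil => simp
      | cons t l ih => simp only [List.map_cons, List.sum_cons]; rw [← ih, al]; ring
    rw [this, hw, wg, wg]; ring
  have b1 : v1 1 (cW U w) = v1 1 (wO A p q) := by simp only [v1, a1]
  have b2 : v2 1 (cW U w) = v2 1 (wO A p q) := by simp only [v2, a1]
  have b3 : v3 1 (cW U w) = v3 1 (wO A p q) := by simp only [v3, a1]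
  have hn := norm_sdT hU w
  rw [b1, b2, b3, ← om_eq k] at hn
  have hom : k.om B F x ≠ 0 := fun h0 => by
    rw [h0, norm_zero, mul_zero, zero_pow two_ne_zero] at hn
    have z1 : v1 1 (wO A p q) = 0 := by nlinarith [sq_nonneg (v2 1 (wO A p q)), sq_nonneg (v3 1 (wO A p q))]
    have z2 : v2 1 (wO A p q) = 0 := by nlinarith [sq_nonneg (v1 1 (wO A p q)), sq_nonneg (v3 1 (wO A p q))]
    have z3 : v3 1 (wO A p q) = 0 := by nlinarith [sq_nonneg (v1 1 (wO A p q)), sq_nonneg (v2 1 (wO A p q))]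
    simp [dt, d3, z1, z2, z3] at hd
  refine ⟨hom, fun m H => ?_⟩
  have Q := qt_md hU H s₀
  have hc := c2_sdT hU H w
  rw [b1, b2, b3, ← om_eq k] at hc
  have hR := c2_sdT hU H fun a b => 1 * (α 0 a * α 2 b) + (-1) * (α 1 a * α 3 b)
  have hI := c2_sdT hU H fun a b => (-1) * (α 0 a * α 3 b) + (-1) * (α 1 a * α 2 b)
  rw [cW_add, cW_tn, cW_tn] at hR hI
  have eR : (fun k l => 1 * tn A 0 2 k l + (-1) * tn A 1 3 k l) = wR A := by
    funext k l; simp only [wR]; ring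
  have eI : (fun k l => (-1) * tn A 0 3 k l + (-1) * tn A 1 2 k l) = wI A := by
    funext k l; simp only [wI]; ring
  rw [eR, c2_alt hB H] at hR
  rw [eI, c2_alt hB H] at hI
  have hT : (k.e.map fun t => m.c2 x (B.dd F t.2.1 t.2.2 x) * m.j x (t.1 x)).sum =
      ∑ a, ∑ b, (1 / 2 : ℝ) • (rp m B x (a, b) *
        m.j x (k.e.map fun t => al F t.2.1 t.2.2 x a b • B.l x (t.1 x)).sum) := by
    induction k.e with
    | nil => simp
    | cons t l ih =>
      simp only [List.map_cons, List.sum_cons, ih, map_add, map_smul, H.jl, mul_add, smul_add,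
        sum_add_distrib]
      rw [show B.dd F t.2.1 t.2.2 x = sdT B x fun a b => F.D a t.2.1 x * F.D b t.2.2 x from rfl,
        c2_alt hB H]
      simp only [sum_mul, smul_mul_assoc, mul_smul_comm, smul_smul, al, div_eq_inv_mul, mul_one]
  have hpos : 0 < 2 * ‖k.om B F x‖ := mul_pos two_pos (norm_pos_iff.2 hom)
  set n := 2 * ‖k.om B F x‖
  have := Q.ne (pp_ne hB H x) (κ := ‖s₀‖ ^ 2)
    (pow_ne_zero _ (norm_ne_zero_iff.2 h0))
    (by rw [H.jsq, hl, mul_smul_comm, pp_p H]) (u1 := n⁻¹ * v1 1 (wO A p q))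
    (u2 := n⁻¹ * v2 1 (wO A p q)) (u3 := n⁻¹ * v3 1 (wO A p q))
    (a1 := v1 1 (wR A)) (a2 := v2 1 (wR A)) (a3 := v3 1 (wR A))
    (b1 := v1 1 (wI A)) (b2 := v2 1 (wI A)) (b3 := v3 1 (wI A))
    (by field_simp; linarith)
    (by have := mul_neg_of_pos_of_neg (inv_pos.2 hpos) hd
        simp only [dt, d3] at this ⊢; linarith)
  rw [← hR, ← hI] at this
  intro hq0
  apply this
  have e1 : k.pi B F m x = (1 / 2 : ℝ) • (m.pp B x - m.J * ((n⁻¹ * v1 1 (wO A p q)) • i1 (rr U fun a => m.ρ a x) +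
      (n⁻¹ * v2 1 (wO A p q)) • i2 (rr U fun a => m.ρ a x) +
      (n⁻¹ * v3 1 (wO A p q)) • i3 (rr U fun a => m.ρ a x))) := by
    simp only [Cut.pi, hc, mul_smul, ← smul_add, mul_smul_comm, n]
  rw [Cut.q0, e1, hT, smul_mul_assoc, smul_mul_assoc, mul_smul_comm, smul_smul,
    smul_eq_zero_iff_right (by norm_num)] at hq0
  rw [← hq0]
  congr 2
  simp only [he, map_sub, map_smul, H.jil, sum_mul, ← sum_add_distrib, smul_mul_assoc, mul_sub,
    mul_smul_comm, wg]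
  exact sum_congr rfl fun a _ => sum_congr rfl fun b _ => by module

/-- the criterion for `Cut.OK` -/
theorem ok_of_pos (hB : B.OK I)
    (sm : ContMDiff 𝓘(ℝ, ℝ × ℝ) I ∞ fun y : ℝ × ℝ => k.γ (y.1 : UnitAddCircle) y.2)
    (h0 : ∀ θ s, s ≤ 0 → k.γ θ s = k.x0) (h1 : ∀ θ s, 1 ≤ s → k.γ θ s = k.γ 0 1)
    (sw : ∀ t ∈ k.w, F.Cb t.1 ∧ F.Cd t.2.1 ∧ F.Cd t.2.2)
    (se : ∀ t ∈ k.e, F.Cb t.1 ∧ F.Cd t.2.1 ∧ F.Cd t.2.2)
    (h : ∀ θ s, Pos k B F (k.γ θ s)) : k.OK B F :=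
  ⟨sm, h0, h1, sw, se, fun θ s => ((h θ s).main hB).1, fun m H θ s => ((h θ s).main hB).2 m H⟩

end Crest.Agent.X212.Cut54
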