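import Crest.Agent.X212.Cut54.Mf

/-!
# Row 212, CUT-DAT, part 4: gluing two local data; the linear algebra of the overlap
-/

set_option autoImplicit false
set_option linter.unusedSectionVars false
noncomputable section
open scoped Manifold ContDiff Topology InnerProductSpace ComplexConjugate
open Set Filter Function Module
open Crest.Agent.R208.F Crest.Agent.X212.Dr59 Crest.Agent.X212.Int54

namespace Crest.Agent.X212.Cut54
open An

section glue
variable {E : Type} [NormedAddCommGroup E] [NormedSpace ℝ E] [FiniteDimensional ℝ E]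
  {HM : Type} [TopologicalSpace HM] {I : ModelWithCorners ℝ E HM} [I.Boundaryless]
  {M : Type} [TopologicalSpace M] [ChartedSpace HM M] [IsManifold I ∞ M] [T2Space M]
  [SecondCountableTopology M] {lam : Type} [Fintype lam]
  {N : Type} [NormedAddCommGroup N] [NormedSpace ℝ N] {K K' O : Set M}

theorem Cs.mono {f : M → N} (h : Cs I K f) (hK : K ⊆ K') : Cs I K' f :=
  ⟨h.1, fun x hx => h.2 x fun k => hx (hK k)⟩

theorem Cs.smul {χ : M → ℝ} (h : Cs I K χ) (hK : IsCompact K) (hO : IsOpen O) (hs : K ⊆ O)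
    {g : M → N} (hg : ContMDiffOn I 𝓘(ℝ, N) ∞ g O) : Cs I K fun x => χ x • g x := by
  refine ⟨fun x => ?_, fun x hx => by simp only [h.2 x hx, zero_smul]⟩
  by_cases e : x ∈ O
  · exact (h.1 x).smul (hg.contMDiffAt (hO.mem_nhds e))
  · exact (contMDiffAt_const (c := 0)).congr_of_eventuallyEq (eventually_of_mem
      (hK.isClosed.isOpen_compl.mem_nhds fun k => e (hs k)) fun y hy => by
        simp only [h.2 y hy, zero_smul])

variable (I) in
theorem exists_bump (hK : IsCompact K) (hO : IsOpen O) (hs : K ⊆ O) :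
    ∃ (χ : M → ℝ) (K' : Set M), IsCompact K' ∧ K ⊆ K' ∧ K' ⊆ O ∧ Cs I K' χ ∧ (∀ x, 0 ≤ χ x) ∧
      ∀ x ∈ K, ∀ᶠ y in 𝓝 x, χ y = 1 := by
  have : LocallyCompactSpace HM := I.locallyCompactSpace
  have : LocallyCompactSpace M := ChartedSpace.locallyCompactSpace HM M
  obtain ⟨K1, a1, a2, a3⟩ := exists_compact_between hK hO hs
  obtain ⟨K2, b1, b2, b3⟩ := exists_compact_between a1 hO a3
  obtain ⟨f, h0, h1, h2⟩ := exists_contMDiffMap_zero_one_of_isClosed (n := ⊤) I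
    (isOpen_interior (s := K2)).isClosed_compl a1.isClosed (disjoint_left.2 fun x hx k => hx (b2 k))
  exact ⟨f, K2, b1, fun x hx => interior_subset (b2 (interior_subset (a2 hx))), b3,
    ⟨f.contMDiff, fun x hx => h0 fun k => hx (interior_subset k)⟩, fun x => (h2 x).1,
    fun x hx => eventually_of_mem (mem_interior_iff_mem_nhds.1 (a2 hx)) h1⟩

variable (I) in
/-- the functions of the cut are smooth on `O` -/
def SmOn (k : Cut M lam) (O : Set M) : Prop :=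
  (∀ t ∈ k.w, ContMDiffOn I 𝓘(ℝ, ℝ) ∞ t.1 O ∧ ContMDiffOn I 𝓘(ℝ, ℝ) ∞ t.2.1 O ∧
    ContMDiffOn I 𝓘(ℝ, ℝ) ∞ t.2.2 O) ∧
  ∀ t ∈ k.e, ContMDiffOn I 𝓘(ℝ, Eu lam) ∞ t.1 O ∧ ContMDiffOn I 𝓘(ℝ, ℝ) ∞ t.2.1 O ∧
    ContMDiffOn I 𝓘(ℝ, ℝ) ∞ t.2.2 O

theorem SmOn.cut {k : Cut M lam} (h : SmOn I k O) (hK : IsCompact K) (hO : IsOpen O) (hs : K ⊆ O) :
    ∃ (χ : M → ℝ) (K' : Set M) (k' : Cut M lam), IsCompact K' ∧ K ⊆ K' ∧ K' ⊆ O ∧
      (∀ t ∈ k'.w, Cs I K' t.1 ∧ Cs I K' t.2.1 ∧ Cs I K' t.2.2) ∧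
      (∀ t ∈ k'.e, Cs I K' t.1 ∧ Cs I K' t.2.1 ∧ Cs I K' t.2.2) ∧ (∀ x, 0 ≤ χ x) ∧
      (∀ x ∈ K, χ x = 1) ∧ (∀ x, χ x ≠ 0 → x ∈ O) ∧
      (∀ x u v, wv I k'.w x u v = χ x * wv I k.w x u v) ∧
      ∀ L x u v, ev I k'.e L x u v = χ x • ev I k.e L x u v := by
  obtain ⟨χ, K1, a1, a2, a3, a4, a5, a6⟩ := exists_bump I hK hO hs
  obtain ⟨ρ, K2, b1, b2, b3, b4, -, b6⟩ := exists_bump I a1 hO a3
  have d : ∀ (g h : M → ℝ) x, χ x ≠ 0 →
      dw I (fun y => ρ y • g y) (fun y => ρ y • h y) x = dw I g h x := fun g h x hx => by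
    have e : ∀ g : M → ℝ, (fun y => ρ y • g y) =ᶠ[𝓝 x] g := fun g =>
      (b6 x (by_contra fun c => hx (a4.2 x c))).mono fun y hy => by simp only [hy, one_smul]
    rw [dw, mf_congr (e g), mf_congr (e h), dw]
  refine ⟨χ, K2, ⟨k.γ, k.w.map fun t => (fun x => χ x • t.1 x, fun x => ρ x • t.2.1 x,
    fun x => ρ x • t.2.2 x), k.e.map fun t => (fun x => χ x • t.1 x, fun x => ρ x • t.2.1 x,
    fun x => ρ x • t.2.2 x)⟩, b1, a2.trans b2, b3, List.forall_mem_map.2 fun t ht => ?_,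
    List.forall_mem_map.2 fun t ht => ?_, a5, fun x hx => (a6 x hx).self_of_nhds,
    fun x hx => a3 (by_contra fun c => hx (a4.2 x c)), fun x u v => ?_, fun L x u v => ?_⟩
  · exact ⟨(a4.mono b2).smul b1 hO b3 (h.1 t ht).1, b4.smul b1 hO b3 (h.1 t ht).2.1,
      b4.smul b1 hO b3 (h.1 t ht).2.2⟩
  · exact ⟨(a4.mono b2).smul b1 hO b3 (h.2 t ht).1, b4.smul b1 hO b3 (h.2 t ht).2.1,
      b4.smul b1 hO b3 (h.2 t ht).2.2⟩
  · rw [wv, wv, ← List.sum_map_mul_left, List.map_map]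
    refine congrArg List.sum (List.map_congr_left fun t _ => ?_)
    by_cases c : χ x = 0
    · simp [c]
    · simp only [comp_apply, d _ _ x c]; rw [smul_eq_mul, mul_assoc]
  · rw [ev, ev, List.smul_sum, List.map_map, List.map_map]
    refine congrArg List.sum (List.map_congr_left fun t _ => ?_)
    by_cases c : χ x = 0
    · simp [c]
    · simp only [comp_apply, d _ _ x c, map_smul, smul_comm (χ x)]

theorem isCompact_supp {γ : UnitAddCircle → ℝ → M}
    (sm : ContMDiff 𝓘(ℝ, ℝ × ℝ) I ∞ fun y : ℝ × ℝ => γ (y.1 : UnitAddCircle) y.2)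
    (h0 : ∀ θ s, s ≤ 0 → γ θ s = γ 0 0) (h1 : ∀ θ s, 1 ≤ s → γ θ s = γ 0 1) :
    IsCompact (range (uncurry γ)) := by
  convert ((isCompact_Icc (a := (0 : ℝ)) (b := 1)).prod (isCompact_Icc (a := (0 : ℝ)) (b := 1))).image
    sm.continuous
  refine Subset.antisymm ?_ (by rintro _ ⟨y, -, rfl⟩; exact ⟨(_, _), rfl⟩)
  rintro _ ⟨⟨θ, s⟩, rfl⟩
  obtain ⟨r, hr, rfl⟩ := AddCircle.eq_coe_Ico θ
  rcases le_total s 0 with a | a
  · exact ⟨(r, 0), ⟨Ico_subset_Icc_self hr, le_rfl, zero_le_one⟩, (h0 _ _ le_rfl).trans (h0 _ _ a).symm⟩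
  · rcases le_total s 1 with b | b
    · exact ⟨(r, s), ⟨Ico_subset_Icc_self hr, a, b⟩, rfl⟩
    · exact ⟨(r, 1), ⟨Ico_subset_Icc_self hr, zero_le_one, le_rfl⟩,
        (h1 _ _ le_rfl).trans (h1 _ _ b).symm⟩

/-- **gluing two local data** -/
theorem exists_mok {γ : UnitAddCircle → ℝ → M}
    (sm : ContMDiff 𝓘(ℝ, ℝ × ℝ) I ∞ fun y : ℝ × ℝ => γ (y.1 : UnitAddCircle) y.2)
    (h0 : ∀ θ s, s ≤ 0 → γ θ s = γ 0 0) (h1 : ∀ θ s, 1 ≤ s → γ θ s = γ 0 1)
    {k₁ k₂ : Cut M lam} {O₁ O₂ : Set M} (o₁ : IsOpen O₁) (o₂ : IsOpen O₂) (s₁ : SmOn I k₁ O₁)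
    (s₂ : SmOn I k₂ O₂) (hc : ∀ θ s, γ θ s ∈ O₁ ∪ O₂) {o : M → Ext E} {l : M → En lam} {il : En lam}
    (h : ∀ x ∈ range (uncurry γ), ∀ c₁ c₂ : ℝ, 0 ≤ c₁ → 0 ≤ c₂ → 0 < c₁ + c₂ → (c₁ ≠ 0 → x ∈ O₁) →
      (c₂ ≠ 0 → x ∈ O₂) → PosL (o x) (l x) il
        (fun u v => c₁ * wv I k₁.w x u v + c₂ * wv I k₂.w x u v)
        fun u v => c₁ • ev I k₁.e (l x) x u v + c₂ • ev I k₂.e (l x) x u v) :
    ∃ (k : Cut M lam) (K : Set M), k.γ = γ ∧ K ⊆ O₁ ∪ O₂ ∧ MOK I k o l il K := by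
  obtain ⟨K₁, K₂, c₁, c₂, a₁, a₂, e⟩ := (isCompact_supp sm h0 h1).binary_compact_cover o₁ o₂
    (by rintro _ ⟨y, rfl⟩; exact hc _ _)
  obtain ⟨χ, L, k, p1, p2, p3, p4, p5, p6, p7, p8, p9, p10⟩ := s₁.cut c₁ o₁ a₁
  obtain ⟨χ', L', k', q1, q2, q3, q4, q5, q6, q7, q8, q9, q10⟩ := s₂.cut c₂ o₂ a₂
  have m : ∀ θ s, γ θ s ∈ K₁ ∪ K₂ := fun θ s => e ▸ ⟨(θ, s), rfl⟩
  refine ⟨⟨γ, k.w ++ k'.w, k.e ++ k'.e⟩, L ∪ L', rfl, union_subset_union p3 q3, p1.union q1, sm, h0, h1,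
    fun θ s => union_subset_union p2 q2 (m θ s), fun t ht => ?_, fun t ht => ?_, fun θ s => ?_⟩
  · rcases List.mem_append.1 ht with c | c
    · exact ⟨(p4 t c).1.mono subset_union_left, (p4 t c).2.1.mono subset_union_left,
        (p4 t c).2.2.mono subset_union_left⟩
    · exact ⟨(q4 t c).1.mono subset_union_right, (q4 t c).2.1.mono subset_union_right,
        (q4 t c).2.2.mono subset_union_right⟩
  · rcases List.mem_append.1 ht with c | c
    · exact ⟨(p5 t c).1.mono subset_union_left, (p5 t c).2.1.mono subset_union_left,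
        (p5 t c).2.2.mono subset_union_left⟩
    · exact ⟨(q5 t c).1.mono subset_union_right, (q5 t c).2.1.mono subset_union_right,
        (q5 t c).2.2.mono subset_union_right⟩
  · have := h (γ θ s) ⟨(θ, s), rfl⟩ _ _ (p6 _) (q6 _) ((m θ s).elim
      (fun c => by linarith [p7 _ c, q6 (γ θ s)]) fun c => by linarith [q7 _ c, p6 (γ θ s)])
      (p8 _) (q8 _)
    simp only [← p9, ← q9, ← p10, ← q10] at this
    convert this using 1 <;> funext u v <;> simp only [wv, ev, List.map_append, List.sum_append]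

end glue

section lin
variable {E : Type} [NormedAddCommGroup E] [NormedSpace ℝ E] [FiniteDimensional ℝ E]
  {lam : Type} [Fintype lam] {o : Ext E} {l il : En lam} {s : Eu lam}

/-- the complex orientation of two complex covectors -/
def cw4 (a b : E →ₗ[ℝ] ℂ) : Ext E :=
  w4 ![Complex.reLm ∘ₗ a, Complex.imLm ∘ₗ a, Complex.reLm ∘ₗ b, Complex.imLm ∘ₗ b]

/-- `Re a ∧ Im a` -/
def ka (a : E → ℂ) (u v : E) : ℝ := (conj (a u) * a v).im

/-- `conj (a ∧ b)` -/
def cb (a b : E → ℂ) (u v : E) : ℂ := conj (a u * b v - a v * b u)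

theorem cs_cs (h : il * il = -1) (c d : ℂ) (v : Eu lam) : cs il c (cs il d v) = cs il (c * d) v := by
  have : il (il v) = -v := congrArg (fun T : En lam => T v) h
  simp only [cs, map_add, map_smul, this, Complex.mul_re, Complex.mul_im]
  module

theorem cs_lin (r t : ℝ) (c d : ℂ) (v : Eu lam) :
    r • cs il c v + t • cs il d v = cs il (r * c + t * d) v := by
  simp only [cs, Complex.add_re, Complex.add_im, Complex.re_ofReal_mul, Complex.im_ofReal_mul]
  module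

theorem cs_ne (h : il * il = -1) {c : ℂ} (hc : c ≠ 0) (hs : s ≠ 0) : cs il c s ≠ 0 := fun e => by
  have := cs_cs h c⁻¹ c s
  rw [e, inv_mul_cancel₀ hc] at this
  simp [cs, hs.symm] at this

theorem posL_of {a b : E →ₗ[ℝ] ℂ} {p q : ℝ} (hp : 0 < p) (hq : 0 < q) (hs : s ≠ 0) (hl : l s = s)
    (ho : 0 < tp E o * tp E (cw4 a b)) {W : E → E → ℝ} {T : E → E → Eu lam}
    (h1 : ∀ u v, W u v = p * ka a u v + q * ka b u v) (h2 : ∀ u v, T u v = cs il (cb a b u v) s) :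
    PosL o l il W T :=
  ⟨_, p, q, s, hp, hq, hs, hl, ho, fun u v => by rw [h1]; simp [wg, ka]; ring, fun u v => by
    rw [h2, cs, sub_eq_add_neg, ← neg_smul]
    congr 2 <;> simp [wg, cb] <;> ring⟩

/-- the overlap of the two charts of a toric sphere -/
theorem posL_mix {a b a' b' : E →ₗ[ℝ] ℂ} {z h : ℂ} {g κ c₁ c₂ : ℝ} (hz : z ≠ 0) (hh : h ≠ 0)
    (hg : 0 < g) (hκ : 0 < κ) (p1 : 0 ≤ c₁) (p2 : 0 ≤ c₂) (p3 : 0 < c₁ + c₂)
    (ha : ∀ v, a' v = h * b v) (e1 : ∀ v, (g * z * b' v).re = -(conj z * a v).re)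
    (e2 : ∀ v, (z * b' v + g * conj z * a v).im = 0) (hi : il * il = -1) (hs : s ≠ 0) (hl : l s = s)
    (hl' : l (il s) = il s) (ho : 0 < tp E o * tp E (cw4 a b)) :
    PosL o l il (fun u v => c₁ * (ka a u v + ka b u v) + c₂ * (ka a' u v + ka b' u v))
      fun u v => c₁ • cs il (cb a b u v) s +
        c₂ • cs il (cb a' b' u v) (cs il (κ * h * conj z ^ 2) s) := by
  set n := Complex.normSq z with hn
  set m := Complex.normSq h with hm
  have n0 : 0 < n := Complex.normSq_pos.2 hz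
  have m0 : 0 < m := Complex.normSq_pos.2 hh
  have pos : ∀ r t : ℝ, 0 < r → 0 < t → 0 < c₁ * r + c₂ * t := fun r t hr ht => by
    rcases p1.lt_or_eq with k | k
    · positivity
    · rw [← k, zero_add] at p3
      positivity
  let X : E →ₗ[ℝ] ℝ := z.re • Complex.reLm ∘ₗ a + z.im • Complex.imLm ∘ₗ a
  let Y : E →ₗ[ℝ] ℝ := z.re • Complex.imLm ∘ₗ a - z.im • Complex.reLm ∘ₗ a
  have k1 : ∀ v, conj z * a v = X v + Y v * Complex.I := fun v => by
    apply Complex.ext <;> simp [X, Y] <;> ring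
  have k2 : ∀ v, z * b' v = -(X v / g + g * Y v * Complex.I) := fun v => by
    have f1 := e1 v
    have f2 := e2 v
    rw [mul_assoc, k1] at f1 f2
    generalize z * b' v = w at f1 f2 ⊢
    apply Complex.ext <;> simp at f1 f2 ⊢
    · field_simp; linarith
    · linarith
  have zc : (n : ℂ) = z * conj z := by rw [hn, Complex.mul_conj]
  have hc : (m : ℂ) = h * conj h := by rw [hm, Complex.mul_conj]
  have z0 : conj z ≠ 0 := by simpa using hz
  have g0 : (g : ℂ) ≠ 0 := by exact_mod_cast hg.ne'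
  have k3 : ∀ v, a v = (X v + Y v * Complex.I) / conj z := fun v => by rw [← k1]; field_simp
  have k4 : ∀ v, b' v = -(X v / g + g * Y v * Complex.I) / z := fun v => by rw [← k2]; field_simp
  set A := c₁ * n⁻¹ + c₂ * (κ * m / g) with hA
  set B := c₁ * n⁻¹ + c₂ * (κ * m * g) with hB
  have A0 : 0 < A := pos _ _ (by positivity) (by positivity)
  have B0 : 0 < B := pos _ _ (by positivity) (by positivity)
  let d : E →ₗ[ℝ] ℂ := Complex.ofRealAm.toLinearMap ∘ₗ (A • X) +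
    Complex.I • Complex.ofRealAm.toLinearMap ∘ₗ (B • Y)
  have hd : ∀ v, d v = A * X v + B * Y v * Complex.I := fun v => by simp [d]; ring
  have w1 : ∀ u v, ka a u v = wg X Y u v / n := fun u v => by
    rw [eq_div_iff n0.ne', hn, Complex.normSq_apply]; simp [ka, wg, X, Y]; ring
  have w2 : ∀ u v, ka b' u v = wg X Y u v / n := fun u v => by
    have : ka (fun v => z * b' v) u v = ka b' u v * n := by
      rw [hn, Complex.normSq_apply]; simp [ka]; ring
    rw [eq_div_iff n0.ne', ← this]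
    simp [ka, k2, wg]; field_simp; ring
  refine posL_of (a := d) (b := b) (p := (c₁ + c₂) / (n * A * B)) (q := c₁ * 1 + c₂ * m)
    (s := cs il (conj z) s) (by positivity) (pos _ _ one_pos m0) (cs_ne hi z0 hs)
    (by simp only [cs, map_add, map_smul, hl, hl']) ?_ (fun u v => ?_) fun u v => ?_
  · have r1 : Complex.reLm ∘ₗ d = A • X := LinearMap.ext fun v => by simp [hd]
    have r2 : Complex.imLm ∘ₗ d = B • Y := LinearMap.ext fun v => by simp [hd]
    have : cw4 d b = (A * B * n) • cw4 a b := by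
      simp only [cw4, w4, r1, r2, Matrix.cons_val_zero, Matrix.cons_val_one, Matrix.cons_val,
        X, Y, map_smul, map_add, map_sub, hn, Complex.normSq_apply, add_mul, mul_sub, smul_mul_assoc,
        mul_smul_comm, ExteriorAlgebra.ι_sq_zero, sub_mul,
        io_anti (Complex.imLm ∘ₗ a) (Complex.reLm ∘ₗ a), neg_mul, zero_mul]
      module
    rw [this, map_smul, smul_eq_mul, mul_left_comm]
    positivity
  · have w3 : ka a' u v = m * ka b u v := by
      rw [hm, Complex.normSq_apply]; simp [ka, ha]; ring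
    have w4 : ka d u v = A * B * wg X Y u v := by simp [ka, hd, wg]; ring
    rw [w1, w2, w3, w4]; field_simp; ring
  · rw [cs_cs hi, cs_cs hi, cs_lin]
    congr 1
    simp only [cb, k3, k4, ha, hd, hA, hB, map_sub, map_mul, map_div₀, map_add, map_neg,
      Complex.conj_ofReal, Complex.conj_I, Complex.conj_conj]
    push_cast
    rw [zc, hc]
    field_simp
    ring

end lin

end Crest.Agent.X212.Cut54
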