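import Crest.Agent.X212.Cut54.Crit
import Crest.Agent.X212.Int54.Link
import Crest.Agent.X212.Sob92.Bas

/-!
# Row 212, CUT-DAT, part 3: metric free cuts

`MOK I k o l il K`: the data of the cut `k` are smooth, supported in the compact set `K`, and positive
for the orientation `o` and the line `(l, il)`.  `MOK.ok` (every frame), `MOK.push`, `rel_push`.
-/

set_option autoImplicit false
set_option linter.unusedSectionVars false
noncomputable section
open scoped Manifold ContDiff Topology InnerProductSpace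
open Set Filter Function Module
open Crest.Agent.R208.F Crest.Agent.X212.Dr59 Crest.Agent.X212.Int54

namespace Crest.Agent.X212.Cut54
open An

section lin
variable {E : Type} [NormedAddCommGroup E] [NormedSpace ℝ E] [FiniteDimensional ℝ E]
  {E' : Type} [NormedAddCommGroup E'] [NormedSpace ℝ E'] [FiniteDimensional ℝ E']
  {lam lam' ι : Type} [Fintype lam] [Fintype lam'] [Fintype ι]

/-- the product of four covectors -/
def w4 (α : Fin 4 → E →ₗ[ℝ] ℝ) : Ext E := io (α 0) * io (α 1) * (io (α 2) * io (α 3))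

theorem w4_eq (α : Fin 4 → E →ₗ[ℝ] ℝ) : w4 α = ExteriorAlgebra.ιMulti ℝ 4 α := by
  simp [w4, ExteriorAlgebra.ιMulti_succ_apply, mul_assoc, Matrix.vecTail]

theorem pb_w4 (A : E' →ₗ[ℝ] E) (α : Fin 4 → E →ₗ[ℝ] ℝ) : pb A (w4 α) = w4 fun i => α i ∘ₗ A := by
  simp only [w4, map_mul, pb_io]

theorem evA_sharp {n : ℕ} (h : finrank ℝ E = n) (v : ι → E) (c : Ext E) (α : Fin n → E →ₗ[ℝ] ℝ) :
    evA E n c (fun i => ∑ a, α i (v a) • v a) = (Met55.gm (finBasis ℝ E) v).det *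
      (tp E c * tp E (ExteriorAlgebra.ιMulti ℝ n α)) := by
  subst h
  rw [evA_top, tp_apply (ExteriorAlgebra.ιMulti ℝ _ α), evA_iMulti, Basis.det_apply, mul_comm (tp E c),
    ← mul_assoc, ← Matrix.det_mul]
  congr 2
  ext i j
  have : ∀ a, α j (v a) = ∑ k, (finBasis ℝ E).repr (v a) k * α j (finBasis ℝ E k) := fun a => by
    conv_lhs => rw [← (finBasis ℝ E).sum_repr (v a)]
    simp only [map_sum, map_smul, smul_eq_mul]
  simp only [Basis.toMatrix_apply, map_sum, map_smul, Finsupp.coe_finsetSum, Finset.sum_apply,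
    Finsupp.smul_apply, smul_eq_mul, this, Met55.gm, Met55.fm, Matrix.mul_apply, Matrix.of_apply,
    Matrix.transpose_apply, Finset.sum_mul]
  rw [Finset.sum_comm]
  exact Finset.sum_congr rfl fun _ _ => Finset.sum_congr rfl fun _ _ => by ring

/-- positivity of a two-form and a line valued two-form -/
def PosL (o : Ext E) (l il : En lam) (W : E → E → ℝ) (T : E → E → Eu lam) : Prop :=
  ∃ (α : Fin 4 → E →ₗ[ℝ] ℝ) (p q : ℝ) (s₀ : Eu lam), 0 < p ∧ 0 < q ∧ s₀ ≠ 0 ∧ l s₀ = s₀ ∧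
    0 < tp E o * tp E (w4 α) ∧ (∀ u v, W u v = p * wg (α 0) (α 1) u v + q * wg (α 2) (α 3) u v) ∧
    ∀ u v, T u v = (wg (α 0) (α 2) u v - wg (α 1) (α 3) u v) • s₀ -
      (wg (α 0) (α 3) u v + wg (α 1) (α 2) u v) • il s₀

/-- an isometry of lines -/
structure LI (l il : En lam) (l' il' : En lam') (V : CL (Eu lam) (Eu lam')) : Prop where
  vv : trn V ∘L V = l
  vv' : V ∘L trn V = l'
  il : V ∘L il = il' ∘L V

theorem LI.l {l il : En lam} {l' il' : En lam'} {V : CL (Eu lam) (Eu lam')} (h : LI l il l' il' V)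
    (s : Eu lam) : l' (V s) = V (l s) := by rw [← h.vv, ← h.vv']; rfl

theorem PosL.map {o : Ext E} {l il : En lam} {W : E → E → ℝ} {T : E → E → Eu lam}
    (h : PosL o l il W T) {o' : Ext E'} {l' il' : En lam'} {W' : E' → E' → ℝ}
    {T' : E' → E' → Eu lam'} (A : E ≃L[ℝ] E') {V : CL (Eu lam) (Eu lam')} (hV : LI l il l' il' V)
    (ho : 0 < tp E o * tp E (pb ((A : E →L[ℝ] E') : E →ₗ[ℝ] E') o'))
    (h1 : ∀ u v, W' (A u) (A v) = W u v) (h2 : ∀ u v, T' (A u) (A v) = V (T u v)) :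
    PosL o' l' il' W' T' := by
  obtain ⟨α, p, q, s, hp, hq, h0, hl, hα, k1, k2⟩ := h
  refine ⟨fun i => α i ∘ₗ ((A.symm : E' →L[ℝ] E) : E' →ₗ[ℝ] E), p, q, V s, hp, hq, fun e => h0 ?_,
    by rw [hV.l, hl], ?_, fun u v => ?_, fun u v => ?_⟩
  · rw [← hl, ← hV.vv, ContinuousLinearMap.comp_apply, e, map_zero]
  · have r := A.toLinearEquiv.finrank_eq.symm
    have e := tp_pb r (A : E →L[ℝ] E') (w4 fun i => α i ∘ₗ ((A.symm : E' →L[ℝ] E) : E' →ₗ[ℝ] E))
    rw [pb_w4, show (fun i => (α i ∘ₗ ((A.symm : E' →L[ℝ] E) : E' →ₗ[ℝ] E)) ∘ₗ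
      ((A : E →L[ℝ] E') : E →ₗ[ℝ] E')) = α from funext fun i => LinearMap.ext fun u => by simp] at e
    rw [tp_pb r] at ho
    rw [e] at hα
    have := mul_pos ho hα
    by_contra! k
    nlinarith [mul_nonneg (mul_self_nonneg (tp E o * jac (A : E →L[ℝ] E'))) (neg_nonneg.2 k)]
  · rw [← A.apply_symm_apply u, ← A.apply_symm_apply v, h1, k1]
    simp [wg]
  · rw [← A.apply_symm_apply u, ← A.apply_symm_apply v, h2, k2, map_sub, map_smul, map_smul,
      ← ContinuousLinearMap.comp_apply V il, hV.il]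
    simp [wg]

end lin

section mf
variable {E : Type} [NormedAddCommGroup E] [NormedSpace ℝ E] [FiniteDimensional ℝ E]
  {HM : Type} [TopologicalSpace HM] {I : ModelWithCorners ℝ E HM} [I.Boundaryless]
  {M : Type} [TopologicalSpace M] [ChartedSpace HM M] [IsManifold I ∞ M]
  {E' : Type} [NormedAddCommGroup E'] [NormedSpace ℝ E'] [FiniteDimensional ℝ E']
  {HM' : Type} [TopologicalSpace HM'] {I' : ModelWithCorners ℝ E' HM'} [I'.Boundaryless]
  {M' : Type} [TopologicalSpace M'] [ChartedSpace HM' M'] [IsManifold I' ∞ M']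
  {lam lam' : Type} [Fintype lam] [Fintype lam']
  {N : Type} [NormedAddCommGroup N] [NormedSpace ℝ N]

variable (I) in
/-- `dg ∧ dh` -/
def dw (g h : M → ℝ) (x : M) : E → E → ℝ := wg (mf I 𝓘(ℝ, ℝ) g x) (mf I 𝓘(ℝ, ℝ) h x)

variable (I) in
/-- the value of `∑ f dg ∧ dh` -/
def wv (w : List ((M → ℝ) × (M → ℝ) × (M → ℝ))) (x : M) (u v : E) : ℝ :=
  (w.map fun t => t.1 x * dw I t.2.1 t.2.2 x u v).sum

variable (I) in
/-- the value of `∑ dg ∧ dh ⊗ l s` -/
def ev (e : List ((M → Eu lam) × (M → ℝ) × (M → ℝ))) (l : En lam) (x : M) (u v : E) : Eu lam :=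
  (e.map fun t => dw I t.2.1 t.2.2 x u v • l (t.1 x)).sum

variable (I) in
/-- smooth and supported in `K` -/
def Cs (K : Set M) (f : M → N) : Prop := ContMDiff I 𝓘(ℝ, N) ∞ f ∧ ∀ x ∉ K, f x = 0

variable (I) in
/-- metric free admissible cuts -/
structure MOK (k : Cut M lam) (o : M → Ext E) (l : M → En lam) (il : En lam) (K : Set M) : Prop where
  cpt : IsCompact K
  sm : ContMDiff 𝓘(ℝ, ℝ × ℝ) I ∞ fun y : ℝ × ℝ => k.γ (y.1 : UnitAddCircle) y.2
  h0 : ∀ θ s, s ≤ 0 → k.γ θ s = k.x0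
  h1 : ∀ θ s, 1 ≤ s → k.γ θ s = k.γ 0 1
  sub : ∀ θ s, k.γ θ s ∈ K
  sw : ∀ t ∈ k.w, Cs I K t.1 ∧ Cs I K t.2.1 ∧ Cs I K t.2.2
  se : ∀ t ∈ k.e, Cs I K t.1 ∧ Cs I K t.2.1 ∧ Cs I K t.2.2
  pos : ∀ θ s, PosL (o (k.γ θ s)) (l (k.γ θ s)) il (wv I k.w (k.γ θ s))
    (ev I k.e (l (k.γ θ s)) (k.γ θ s))

variable {k : Cut M lam} {o : M → Ext E} {l : M → En lam} {il : En lam} {K : Set M}

/-- **a metric free cut is admissible for every frame** -/
theorem MOK.ok [MeasurableSpace E] [BorelSpace E] [MeasurableSpace M] [BorelSpace M]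
    [SecondCountableTopology M] [T2Space M] {ι : Type} [Fintype ι] (h : MOK I k o l il K)
    (h4 : finrank ℝ E = 4) {B : Base M ι lam} (hB : B.OK I) (F : Fr I M ι)
    (ho : ∀ x ∈ K, ∀ a b c d, B.o a b c d x = oc F.e (volF o F.e) a b c d x)
    (hl : ∀ x ∈ K, B.l x = l x) (hi : B.il = il) : k.OK B F := by
  have cb : ∀ {N : Type} [NormedAddCommGroup N] [NormedSpace ℝ N] {f : M → N}, Cs I K f → F.Cb f :=
    fun hf => Sob92.Cb_of_hcs hf.1 (HasCompactSupport.intro h.cpt hf.2)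
  have cd : ∀ {f : M → ℝ}, Cs I K f → F.Cd f := fun hf => ⟨hf.1, Sob92.Cb_D (cb hf)⟩
  refine ok_of_pos hB h.sm h.h0 h.h1
    (fun t ht => ⟨cb (h.sw t ht).1, cd (h.sw t ht).2.1, cd (h.sw t ht).2.2⟩)
    (fun t ht => ⟨cb (h.se t ht).1, cd (h.se t ht).2.1, cd (h.se t ht).2.2⟩) fun θ s => ?_
  obtain ⟨α, p, q, s₀, hp, hq, h0, h1, h2, h3, h5⟩ := h.pos θ s
  have hx := h.sub θ s
  generalize k.γ θ s = x at *
  refine ⟨fun i a => α i (fv F.e x a), p, q, s₀, hp, hq, h0, by rw [hl x hx, h1], ?_,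
    fun a b => h3 (fv F.e x a) (fv F.e x b), fun a b => ?_⟩
  · have e := evA_sharp h4 (fv F.e x) (volF o F.e x) α
    rw [evA_mix, sum_fun4, ← w4_eq, show tp E (volF o F.e x) = nf o F.e x * tp E (o x) from
      map_smul (tp E) (nf o F.e x) (o x), mul_assoc] at e
    have k := mul_pos ((pre_sp F.toPre x).det_pos (b := finBasis ℝ E)) (mul_pos (nf_pos (pre_sp F.toPre x)
      (left_ne_zero_of_mul h2.ne')) h2)
    refine (k.trans_eq e.symm).trans_eq ?_
    refine Finset.sum_congr rfl fun a _ => Finset.sum_congr rfl fun b _ =>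
      Finset.sum_congr rfl fun c _ => Finset.sum_congr rfl fun d _ => ?_
    rw [ho x hx, mul_comm, Fin.prod_univ_four]
    rfl
  · rw [hl x hx, hi]; exact h5 (fv F.e x a) (fv F.e x b)

/-! ### push forward -/

variable (φ : PartialDiffeomorph I I' M M' ∞)

open Classical in
/-- extension by zero -/
def xt (f : M → N) (z : M') : N := if z ∈ φ.target then f (φ.symm z) else 0

theorem xt_map (f : M → N) {x : M} (hx : x ∈ φ.source) : xt φ f (φ x) = f x := by
  rw [xt, if_pos (φ.map_source hx)]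
  exact congrArg f (φ.left_inv hx)

variable {φ}

theorem xt_zero {f : M → N} (h : ∀ x ∉ K, f x = 0) {z : M'} (hz : z ∉ φ '' K) : xt φ f z = 0 := by
  unfold xt
  split_ifs with e
  exacts [h _ fun k => hz ⟨_, k, φ.right_inv e⟩, rfl]

theorem cs_xt [T2Space M'] {f : M → N} (hK : IsCompact K) (hs : K ⊆ φ.source)
    (h : ContMDiffOn I 𝓘(ℝ, N) ∞ f φ.source) (h' : ∀ x ∉ K, f x = 0) : Cs I' (φ '' K) (xt φ f) := by
  refine ⟨fun z => ?_, fun z => xt_zero h'⟩
  by_cases e : z ∈ φ.target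
  · refine ((h.comp φ.contMDiffOn_invFun φ.mapsTo_symm).contMDiffAt
      (φ.open_target.mem_nhds e)).congr_of_eventuallyEq ?_
    exact eventually_of_mem (φ.open_target.mem_nhds e) fun y hy => if_pos hy
  · refine contMDiffAt_const.congr_of_eventuallyEq (eventually_of_mem
      ((hK.image_of_continuousOn (φ.contMDiffOn_toFun.continuousOn.mono hs)).isClosed.isOpen_compl.mem_nhds
        ?_) fun y hy => xt_zero h' hy)
    rintro ⟨x, hx, rfl⟩
    exact e (φ.map_source (hs hx))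

theorem Cs.xt [T2Space M'] {f : M → N} (h : Cs I K f) (hK : IsCompact K) (hs : K ⊆ φ.source) :
    Cs I' (φ '' K) (xt φ f) := cs_xt hK hs h.1.contMDiffOn h.2

theorem Cs.app [T2Space M] {f : M → Eu lam} (h : Cs I K f) (hK : IsCompact K)
    {v : M → CL (Eu lam) (Eu lam')} (hv : ∀ x ∈ K, ContMDiffAt I 𝓘(ℝ, CL (Eu lam) (Eu lam')) ∞ v x) :
    Cs I K fun x => v x (f x) := by
  refine ⟨fun x => ?_, fun x hx => by simp only [h.2 x hx, map_zero]⟩
  by_cases e : x ∈ K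
  · exact (hv x e).clm_apply (h.1 x)
  · exact (contMDiffAt_const (c := 0)).congr_of_eventuallyEq (eventually_of_mem
      (hK.isClosed.isOpen_compl.mem_nhds e) fun y hy => by simp only [h.2 y hy, map_zero])

theorem mf_xt {f : M → ℝ} {g : M' → ℝ} (hg : ContMDiff I' 𝓘(ℝ, ℝ) ∞ g) {x : M} (hx : x ∈ φ.source)
    (e : EqOn (g ∘ φ) f φ.source) (u : E) :
    mf I' 𝓘(ℝ, ℝ) g (φ x) (mf I I' φ x u) = mf I 𝓘(ℝ, ℝ) f x u := by
  rw [← mf_congr (eventually_of_mem (φ.open_source.mem_nhds hx) e), mf_comp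
    (hg.mdifferentiableAt (by simp)) ((φ.contMDiffOn_toFun.contMDiffAt
      (φ.open_source.mem_nhds hx)).mdifferentiableAt (by simp))]
  rfl

variable (φ) in
/-- the push forward of a cut -/
def push (v : M → CL (Eu lam) (Eu lam')) (k : Cut M lam) : Cut M' lam' where
  γ θ s := φ (k.γ θ s)
  w := k.w.map fun t => (xt φ t.1, xt φ t.2.1, xt φ t.2.2)
  e := k.e.map fun t => (xt φ fun x => v x (t.1 x), xt φ t.2.1, xt φ t.2.2)

theorem MOK.push [T2Space M] [T2Space M'] (h : MOK I k o l il K) (hs : K ⊆ φ.source) {o' : M' → Ext E'}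
    {l' : M' → En lam'} {il' : En lam'} {v : M → CL (Eu lam) (Eu lam')}
    (ho : SameOn o (pm I I' φ o') K) (hv : ∀ x ∈ K, ContMDiffAt I 𝓘(ℝ, CL (Eu lam) (Eu lam')) ∞ v x)
    (hl : ∀ x ∈ K, LI (l x) il (l' (φ x)) il' (v x)) :
    MOK I' (push φ v k) o' l' il' (φ '' K) where
  cpt := h.cpt.image_of_continuousOn (φ.contMDiffOn_toFun.continuousOn.mono hs)
  sm y := (φ.contMDiffOn_toFun.contMDiffAt (φ.open_source.mem_nhds (hs (h.sub _ _)))).comp y (h.sm y)
  h0 θ s k := congrArg φ (h.h0 θ s k)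
  h1 θ s k := congrArg φ (h.h1 θ s k)
  sub θ s := ⟨_, h.sub θ s, rfl⟩
  sw := List.forall_mem_map.2 fun t ht =>
    ⟨(h.sw t ht).1.xt h.cpt hs, (h.sw t ht).2.1.xt h.cpt hs, (h.sw t ht).2.2.xt h.cpt hs⟩
  se := List.forall_mem_map.2 fun t ht =>
    ⟨((h.se t ht).1.app h.cpt hv).xt h.cpt hs, (h.se t ht).2.1.xt h.cpt hs,
      (h.se t ht).2.2.xt h.cpt hs⟩
  pos θ s := by
    have hx := h.sub θ s
    have ld := φ.isLocalDiffeomorphAt I I' ∞ (hs hx)
    have d : ∀ {f g : M → ℝ}, Cs I K f → Cs I K g → ∀ u w, dw I' (xt φ f) (xt φ g) (φ (k.γ θ s))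
        (mf I I' φ (k.γ θ s) u) (mf I I' φ (k.γ θ s) w) = dw I f g (k.γ θ s) u w :=
      fun hf hg u w => by
        simp only [dw, wg, mf_xt (hf.xt h.cpt hs).1 (hs hx) fun y => xt_map φ _,
          mf_xt (hg.xt h.cpt hs).1 (hs hx) fun y => xt_map φ _]
    refine (h.pos θ s).map (ld.mfderivToContinuousLinearEquiv (by simp)) (hl _ hx) (ho _ hx)
      (fun u w => ?_) fun u w => ?_
    · refine congrArg List.sum ((List.map_map ..).trans (List.map_congr_left fun t ht => ?_))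
      exact congrArg₂ (· * ·) (xt_map φ _ (hs hx)) (d (h.sw t ht).2.1 (h.sw t ht).2.2 u w)
    · rw [ev, ev, map_list_sum, List.map_map]
      refine congrArg List.sum ((List.map_map ..).trans (List.map_congr_left fun t ht => ?_))
      refine (congrArg₂ (fun (a : ℝ) b => a • l' (φ (k.γ θ s)) b)
        (d (h.se t ht).2.1 (h.se t ht).2.2 u w) (xt_map φ (fun x => v x (t.1 x)) (hs hx))).trans ?_
      rw [(hl _ hx).l, comp_apply, map_smul]

theorem rel_push (φ : PartialDiffeomorph I I' M M' ∞) (v : M → CL (Eu lam) (Eu lam')) {O : Set M}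
    (h : k.supp ⊆ O) (hO : O ⊆ φ.source) : k.Rel (push φ v k) O φ v where
  sub := h
  γ _ _ := rfl
  w := List.forall₂_map_right_iff.2 (List.forall₂_same.2 fun _ _ =>
    ⟨fun _ hx => xt_map φ _ (hO hx), fun _ hx => xt_map φ _ (hO hx), fun _ hx => xt_map φ _ (hO hx)⟩)
  e := List.forall₂_map_right_iff.2 (List.forall₂_same.2 fun _ _ =>
    ⟨fun _ hx => congrArg _ (xt_map φ (fun x => v x _) (hO hx)), fun _ hx => xt_map φ _ (hO hx),
      fun _ hx => xt_map φ _ (hO hx)⟩)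

/-- two push forwards of one cut correspond to each other -/
theorem MOK.rel {E'' HM'' M'' lam'' : Type} [NormedAddCommGroup E''] [NormedSpace ℝ E'']
    [FiniteDimensional ℝ E''] [TopologicalSpace HM''] {I'' : ModelWithCorners ℝ E'' HM''}
    [I''.Boundaryless] [TopologicalSpace M''] [ChartedSpace HM'' M''] [IsManifold I'' ∞ M'']
    [Fintype lam''] (h : MOK I k o l il K)
    {φ' : PartialDiffeomorph I I'' M M'' ∞} (hs : K ⊆ φ.source) (hs' : K ⊆ φ'.source)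
    {v : M → CL (Eu lam) (Eu lam')} {v' : M → CL (Eu lam) (Eu lam'')} {O : Set M'} {ψ : M' → M''}
    {w : M' → CL (Eu lam') (Eu lam'')} (hO : φ '' K ⊆ O) (hψ : InjOn ψ O)
    (e : ∀ x ∈ K, ψ (φ x) = φ' x)
    (hw : ∀ x ∈ K, ∀ a, trn (w (φ x)) (v' x a) = trn (w (φ x)) (w (φ x) (v x a))) :
    (Cut54.push φ v k).Rel (Cut54.push φ' v' k) O ψ w := by
  have key : ∀ z ∈ O, z ∉ φ '' K → ψ z ∉ φ' '' K := by
    rintro z hz h1 ⟨x, hx, h2⟩
    exact h1 ⟨x, hx, hψ (hO ⟨x, hx, rfl⟩) hz ((e x hx).trans h2)⟩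
  have k1 : ∀ {f : M → ℝ}, Cs I K f → EqOn (xt φ' f ∘ ψ) (xt φ f) O := fun hf z hz => by
    by_cases c : z ∈ φ '' K
    · obtain ⟨x, hx, rfl⟩ := c
      rw [comp_apply, e x hx, xt_map _ _ (hs hx), xt_map _ _ (hs' hx)]
    · rw [comp_apply, xt_zero hf.2 c, xt_zero hf.2 (key z hz c)]
  refine ⟨?_, fun θ s => (e _ (h.sub θ s)).symm, ?_, ?_⟩
  · rintro _ ⟨⟨θ, s⟩, rfl⟩
    exact hO ⟨_, h.sub θ s, rfl⟩
  · exact List.forall₂_map_left_iff.2 (List.forall₂_map_right_iff.2 (List.forall₂_same.2 fun t ht =>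
      ⟨k1 (h.sw t ht).1, k1 (h.sw t ht).2.1, k1 (h.sw t ht).2.2⟩))
  · refine List.forall₂_map_left_iff.2 (List.forall₂_map_right_iff.2 (List.forall₂_same.2 fun t ht =>
      ⟨fun z hz => ?_, k1 (h.se t ht).2.1, k1 (h.se t ht).2.2⟩))
    by_cases c : z ∈ φ '' K
    · obtain ⟨x, hx, rfl⟩ := c
      simp only [e x hx, xt_map _ _ (hs hx), xt_map _ _ (hs' hx), hw x hx]
    · have a : ∀ x ∉ K, t.1 x = 0 := (h.se t ht).1.2
      simp only [xt_zero (f := fun x => v x (t.1 x)) (fun x hx => by rw [a x hx, map_zero]) c,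
        xt_zero (f := fun x => v' x (t.1 x)) (fun x hx => by rw [a x hx, map_zero]) (key z hz c),
        map_zero]

end mf

end Crest.Agent.X212.Cut54
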