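import Crest.Agent.X212.Cut54.Sph
import Crest.Agent.X212.Line51.Rod
import Crest.Agent.X212.Orx52.Rod
import Crest.Agent.X212.Wd38.Defs

/-!
# Row 212, CUT-DAT, part 6: the cut round a bounded rod

`RS v a b k c₁ c₂`: a rod of slope `b` between vertices `(a, b, c₁)` and `(b, -a + k b, c₂)`; `RS.γ`: the
meridians of its sphere; `RS.exists_mok`: the cut for a toric line of degree `k - 2` on the sphere.
-/

set_option autoImplicit false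
set_option linter.unusedSectionVars false
noncomputable section
open scoped Manifold ContDiff Topology ComplexConjugate Real
open Set Filter Function
open Crest.Agent.R208.F Crest.Agent.X212.Pj41
open Crest.Agent.X212.Rod53 Crest.Agent.X212.Glue52
open Crest.Agent.X212.Line51 hiding Uni

namespace Crest.Agent.X212.Cut54
open An

variable {EN HN : Type} [NormedAddCommGroup EN] [NormedSpace ℝ EN] [FiniteDimensional ℝ EN]
  [TopologicalSpace HN] {IN : ModelWithCorners ℝ EN HN} [IN.Boundaryless]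
  {N : Type} [TopologicalSpace N] [ChartedSpace HN N] [IsManifold IN ∞ N] [T2Space N]
  {T : Tb IN N} {v : ℝ → Z2} {a b : Z2} {k : ℤ} {c₁ c₂ : ℝ}

theorem dt_nx (a b : Z2) (k : ℤ) : Rod53.dt b (-a + k • b) = Rod53.dt a b := by simp [Rod53.dt]; ring

theorem uni_nx (hu : Uni a b) (k : ℤ) : Uni b (-a + k • b) := by
  unfold Rod53.Uni at *; rwa [dt_nx]

theorem rod_nx (hu : Uni a b) {w : (Circle × ℂ) × ℝ} (hw : w ∈ Ur v b) :
    T.rod v (uni_nx hu k) w = T.rod v hu.symm (iv (tw k w.1), w.2) := T.nf_injective v <| by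
  rw [T.nf_rod _ hw, T.nf_rod _ (w := (iv (tw k w.1), w.2)) (hw.imp_left (mt tw_ne.1)),
    T.Φr_tw k hw, T.Φr_iv]

/-- the transition between consecutive vertex charts -/
theorem vtx_nx (hu : Uni a b) {Z Z' : ℂ × ℂ} (hZ : Z ∈ Uv v a b c₁) (hZ' : Z' ∈ Uv v b (-a + k • b) c₂)
    (h : Z.1 ≠ 0) (h' : Z'.2 ≠ 0) : T.vtx v hu c₁ Z = T.vtx v (uni_nx hu k) c₂ Z' ↔
      hR c₁ Z = (iv (tw k (hL c₂ Z').1), (hL c₂ Z').2) := by
  rw [T.vtx_eq_R hu hZ h, T.vtx_eq_L _ hZ' h', rod_nx hu (hL_mem hZ' h')]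
  exact ⟨(T.rod v hu.symm).injOn (hR_mem hZ h) ((hL_mem hZ' h').imp_left (mt tw_ne.1)), congrArg _⟩

theorem tr_of {Z Z' : ℂ × ℂ} (h' : Z'.2 ≠ 0)
    (e : hR c₁ Z = (iv (tw k (hL c₂ Z').1), (hL c₂ Z').2)) :
    Z'.1 = ((‖Z.1‖ * ‖Z'.2‖⁻¹ : ℝ) : ℂ) * (dir Z.1 ^ k : Circle) * Z.2 ∧
      Z.1 * Z'.2 = (‖Z.1‖ * ‖Z'.2‖ : ℝ) ∧
      ‖Z.1‖ ^ 2 + ‖Z'.2‖ ^ 2 = c₂ - c₁ + ‖Z.2‖ ^ 2 + ‖Z'.1‖ ^ 2 := by
  have e1 : dir Z.1 = (dir Z'.2)⁻¹ := congrArg (fun w => w.1.1) e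
  have e2 : ((2 * ‖Z.1‖ : ℝ) : ℂ) * Z.2 = ((2 * ‖Z'.2‖ : ℝ) : ℂ) * Z'.1 * (dir Z'.2 ^ k : Circle) :=
    congrArg (fun w => w.1.2) e
  have e3 : tm c₁ Z = tm c₂ Z' := congrArg Prod.snd e
  have n' : (‖Z'.2‖ : ℂ) ≠ 0 := by exact_mod_cast norm_ne_zero_iff.2 h'
  refine ⟨?_, ?_, by unfold tm at e3; linarith⟩
  · have := (dir Z'.2 ^ k).coe_ne_zero
    rw [e1, inv_zpow, Circle.coe_inv]
    push_cast at e2 this ⊢
    field_simp
    linear_combination (-1 / 2 : ℂ) * e2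
  · conv_lhs => rw [← norm_mul_dir Z.1, ← norm_mul_dir Z'.2, e1, mul_mul_mul_comm, ← Circle.coe_mul]
    simp

/-- a bounded rod of slope `b`, of self-intersection `-k` for the complex orientation of the charts -/
structure RS (v : ℝ → Z2) (a b : Z2) (k : ℤ) (c₁ c₂ : ℝ) : Prop where
  uni : Uni a b
  lt : c₁ < c₂
  left : Ico c₁ c₂ ⊆ Jv v a b c₁
  right : Ioc c₁ c₂ ⊆ Jv v b (-a + k • b) c₂

/-- the radii of a meridian in the two charts -/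
def r₁ (L s : ℝ) : ℝ := √L * Real.sin (π / 2 * Real.smoothTransition s)
def r₂ (L s : ℝ) : ℝ := √L * Real.cos (π / 2 * Real.smoothTransition s)

section rad
variable {L s : ℝ}

theorem r_sq (hL : 0 ≤ L) (s : ℝ) : r₁ L s ^ 2 + r₂ L s ^ 2 = L := by
  rw [r₁, r₂, mul_pow, mul_pow, ← mul_add, Real.sin_sq_add_cos_sq, mul_one, Real.sq_sqrt hL]

theorem r₁_pos (hL : 0 < L) (hs : 0 < s) : 0 < r₁ L s := by
  have := Real.smoothTransition.pos_of_pos hs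
  have := Real.smoothTransition.le_one s
  have := Real.pi_pos
  exact mul_pos (Real.sqrt_pos.2 hL) (Real.sin_pos_of_pos_of_lt_pi (by positivity) (by nlinarith))

theorem r₂_pos (hL : 0 < L) (hs : s < 1) : 0 < r₂ L s := by
  have := Real.smoothTransition.lt_one_of_lt_one hs
  have := Real.smoothTransition.nonneg s
  have := Real.pi_pos
  exact mul_pos (Real.sqrt_pos.2 hL) (Real.cos_pos_of_mem_Ioo ⟨by nlinarith, by nlinarith⟩)

theorem r₁_zero (hs : s ≤ 0) : r₁ L s = 0 := by simp [r₁, Real.smoothTransition.zero_of_nonpos hs]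

theorem r₂_zero (hs : 1 ≤ s) : r₂ L s = 0 := by simp [r₂, Real.smoothTransition.one_of_one_le hs]

theorem cd_r₁ : ContDiff ℝ ∞ (r₁ L) :=
  contDiff_const.mul (Real.contDiff_sin.comp (contDiff_const.mul Real.smoothTransition.contDiff))

theorem cd_r₂ : ContDiff ℝ ∞ (r₂ L) :=
  contDiff_const.mul (Real.contDiff_cos.comp (contDiff_const.mul Real.smoothTransition.contDiff))

/-- the meridians in the first and in the second chart -/
def m₁ (L : ℝ) (θ : UnitAddCircle) (s : ℝ) : ℂ × ℂ := (r₁ L s * θ.toCircle, 0)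
def m₂ (L : ℝ) (θ : UnitAddCircle) (s : ℝ) : ℂ × ℂ := (0, r₂ L s * (θ.toCircle⁻¹ : Circle))

theorem cm_tc (y : ℝ × ℝ) : ContMDiffAt 𝓘(ℝ, ℝ × ℝ) (𝓡 1) ∞
    (fun y : ℝ × ℝ => AddCircle.toCircle (y.1 : UnitAddCircle)) y :=
  (contMDiff_circleExp _).comp y (contDiff_const.mul contDiff_fst).contMDiff.contMDiffAt

theorem cm_m₁ : ContMDiff 𝓘(ℝ, ℝ × ℝ) IV ∞ fun y : ℝ × ℝ => m₁ L y.1 y.2 := fun y =>
  (cm_mul (cm_ofReal (cd_r₁.comp contDiff_snd).contMDiff.contMDiffAt) (cm_coe (cm_tc y))).prodMk_space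
    contMDiffAt_const

theorem cm_m₂ : ContMDiff 𝓘(ℝ, ℝ × ℝ) IV ∞ fun y : ℝ × ℝ => m₂ L y.1 y.2 := fun y =>
  contMDiffAt_const.prodMk_space
    (cm_mul (cm_ofReal (cd_r₂.comp contDiff_snd).contMDiff.contMDiffAt) (cm_coe (cm_tc y).inv))

theorem tm_m₁ (c : ℝ) (θ : UnitAddCircle) (s : ℝ) : tm c (m₁ L θ s) = c + r₁ L s ^ 2 := by
  simp [tm, m₁, Circle.norm_coe]

theorem tm_m₂ (c : ℝ) (θ : UnitAddCircle) (s : ℝ) : tm c (m₂ L θ s) = c - r₂ L s ^ 2 := by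
  simp [tm, m₂, sub_eq_add_neg, Circle.norm_coe]

end rad

namespace RS
variable (S : RS v a b k c₁ c₂) (T) {θ : UnitAddCircle} {s : ℝ}

/-- the two vertex charts -/
abbrev ψ₁ := T.vtx v S.uni c₁
abbrev ψ₂ := T.vtx v (uni_nx S.uni k) c₂

/-- the meridians of the sphere -/
def γ (θ : UnitAddCircle) (s : ℝ) : X T v :=
  if s < 1 then S.ψ₁ T (m₁ (c₂ - c₁) θ s) else S.ψ₂ T 0

include S

theorem t₁ (hs : s < 1) : tm c₁ (m₁ (c₂ - c₁) θ s) ∈ Ico c₁ c₂ := by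
  have := r_sq (sub_pos.2 S.lt).le s
  have := r₂_pos (sub_pos.2 S.lt) hs
  rw [tm_m₁]
  exact ⟨by nlinarith, by nlinarith⟩

theorem t₂ (hs : 0 < s) : tm c₂ (m₂ (c₂ - c₁) θ s) ∈ Ioc c₁ c₂ := by
  have := r_sq (sub_pos.2 S.lt).le s
  have := r₁_pos (sub_pos.2 S.lt) hs
  rw [tm_m₂]
  exact ⟨by nlinarith, by nlinarith⟩

theorem mem₁ (hs : s < 1) : m₁ (c₂ - c₁) θ s ∈ Uv v a b c₁ := Or.inr (S.left (S.t₁ hs))

theorem mem₂ (hs : 0 < s) : m₂ (c₂ - c₁) θ s ∈ Uv v b (-a + k • b) c₂ := Or.inr (S.right (S.t₂ hs))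

theorem γ_lt (hs : s < 1) : S.γ T θ s = S.ψ₁ T (m₁ (c₂ - c₁) θ s) := if_pos hs

theorem γ_pos (hs : 0 < s) : S.γ T θ s = S.ψ₂ T (m₂ (c₂ - c₁) θ s) := by
  by_cases h : s < 1
  · have p1 := r₁_pos (sub_pos.2 S.lt) hs
    have p2 := r₂_pos (sub_pos.2 S.lt) h
    rw [S.γ_lt T h, vtx_nx S.uni (S.mem₁ h) (S.mem₂ hs)
      (mul_ne_zero (Complex.ofReal_ne_zero.2 p1.ne') (Circle.coe_ne_zero _))
      (mul_ne_zero (Complex.ofReal_ne_zero.2 p2.ne') (Circle.coe_ne_zero _))]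
    refine Prod.ext (Prod.ext ((dir_mul p1 _).trans ?_) (by simp [hR, hL, hyp, iv, tw, m₁, m₂])) ?_
    · exact (_root_.inv_inv _).symm.trans (congrArg Inv.inv (dir_mul p2 _).symm)
    · show tm _ _ = tm _ _
      rw [tm_m₁, tm_m₂]
      linarith [r_sq (sub_pos.2 S.lt).le s]
  · rw [γ, if_neg h, m₂, r₂_zero (not_lt.1 h)]
    simp [Prod.mk_zero_zero]

theorem γ_zero (hs : s ≤ 0) : S.γ T θ s = S.γ T 0 0 := by
  rw [S.γ_lt T (hs.trans_lt one_pos), S.γ_lt T one_pos, m₁, m₁, r₁_zero hs, r₁_zero le_rfl]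
  simp

theorem γ_one (hs : 1 ≤ s) : S.γ T θ s = S.γ T 0 1 := by
  rw [γ, γ, if_neg hs.not_gt, if_neg (lt_irrefl _)]

theorem sm_γ : ContMDiff 𝓘(ℝ, ℝ × ℝ) (𝓡 4) ∞ fun y : ℝ × ℝ => S.γ T y.1 y.2 := fun y => by
  rcases lt_or_ge y.2 1 with h | h
  · refine (((ld_pd (S.ψ₁ T) (S.mem₁ h)).contMDiffAt).comp y (cm_m₁ y)).congr_of_eventuallyEq ?_
    exact eventually_of_mem ((isOpen_lt continuous_snd continuous_const).mem_nhds h)
      fun _ e => S.γ_lt T e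
  · have h' := one_pos.trans_le h
    refine (((ld_pd (S.ψ₂ T) (S.mem₂ h')).contMDiffAt).comp y (cm_m₂ y)).congr_of_eventuallyEq ?_
    exact eventually_of_mem ((isOpen_lt continuous_const continuous_snd).mem_nhds h')
      fun _ e => S.γ_pos T e

theorem time_lt (hs : s < 1) : T.time v (S.γ T θ s) ∈ Ico c₁ c₂ := by
  rw [S.γ_lt T hs, T.time_vtx _ (S.mem₁ hs)]; exact S.t₁ hs

theorem time_pos (hs : 0 < s) : T.time v (S.γ T θ s) ∈ Ioc c₁ c₂ := by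
  rw [S.γ_pos T hs, T.time_vtx _ (S.mem₂ hs)]; exact S.t₂ hs

theorem time_mem (θ : UnitAddCircle) (s : ℝ) : T.time v (S.γ T θ s) ∈ Icc c₁ c₂ :=
  (lt_or_ge s 1).elim (fun h => Ico_subset_Icc_self (S.time_lt T h))
    fun h => Ioc_subset_Icc_self (S.time_pos T (one_pos.trans_le h))

theorem not_off (θ : UnitAddCircle) (s : ℝ) : S.γ T θ s ∉ off T v := by
  rcases lt_or_ge s 1 with h | h
  · rw [S.γ_lt T h, vtx_mem_off _ (S.mem₁ h)]; exact fun e => e.2 rfl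
  · have h' := one_pos.trans_le h
    rw [S.γ_pos T h', vtx_mem_off _ (S.mem₂ h')]; exact fun e => e.1 rfl

theorem of_time (h : T.time v (S.γ T θ s) ∈ Ioo c₁ c₂) : s ∈ Ioo (0 : ℝ) 1 := by
  constructor <;> by_contra! e
  · have := h.1
    rw [S.γ_lt T (e.trans_lt one_pos), T.time_vtx _ (S.mem₁ (e.trans_lt one_pos)), tm_m₁,
      r₁_zero e] at this
    simp at this
  · have := h.2
    rw [S.γ_pos T (one_pos.trans_le e), T.time_vtx _ (S.mem₂ (one_pos.trans_le e)), tm_m₂,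
      r₂_zero e] at this
    simp at this

variable {κ : Type} [Fintype κ] [DecidableEq κ] {m : ℝ → ℤ} {η₁ η₂ : Z2} {U : Set (X T v)}
  {p : X T v → Matrix κ κ ℂ} {σ : X T v → Matrix κ Unit ℂ} {O : X T v → Ext E4}

omit S in
theorem msc {M : Type} (u : Matrix κ Unit ℂ) (g : M → Circle) (x : M) : u * sc g x = (g x : ℂ) • u := by
  ext i j
  simp [Matrix.mul_apply, sc, mul_comm]

variable {T} in
/-- **the cut round a bounded rod** -/
theorem exists_mok [SecondCountableTopology (X T v)]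
    (o₁ : Orx52.Pos IV (𝓡 4) (S.ψ₁ T) (S.ψ₁ T).source Orx52.oV O)
    (o₂ : Orx52.Pos IV (𝓡 4) (S.ψ₂ T) (S.ψ₂ T).source Orx52.oV O) (hU : IsOpen U)
    (hγ : ∀ θ s, S.γ T θ s ∈ U) (h : TL T v m p σ U) (h₁ : ∀ t ∈ Ico c₁ c₂, Rep v m η₁ t)
    (h₂ : ∀ t ∈ Ioc c₁ c₂, Rep v m η₂ t) (he : dot (η₁ - η₂) a = k - 2) :
    ∃ (c : Cut (X T v) (κ ⊕ κ)) (K : Set (X T v)), c.γ = S.γ T ∧ K ⊆ U ∧
      MOK (𝓡 4) c O (fun x => rl (p x)) (iL κ) K := by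
  let O₁ := U ∩ ((S.ψ₁ T).target ∩ T.time v ⁻¹' (Iio c₂ ∩ {t | Rep v m η₁ t}))
  let O₂ := U ∩ ((S.ψ₂ T).target ∩ T.time v ⁻¹' (Ioi c₁ ∩ {t | Rep v m η₂ t}))
  have p₁ : IsOpen O₁ := hU.inter ((S.ψ₁ T).open_target.inter
    ((isOpen_Iio.inter isOpen_setOfPred_eventually_nhds).preimage T.continuous_time))
  have p₂ : IsOpen O₂ := hU.inter ((S.ψ₂ T).open_target.inter
    ((isOpen_Ioi.inter isOpen_setOfPred_eventually_nhds).preimage T.continuous_time))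
  have t₁ : O₁ ⊆ T.tor v := fun x hx => (S.ψ₁ T).right_inv hx.2.1 ▸
    T.vtx_mem_tor _ ((S.ψ₁ T).map_target hx.2.1)
  have t₂ : O₂ ⊆ T.tor v := fun x hx => (S.ψ₂ T).right_inv hx.2.1 ▸
    T.vtx_mem_tor _ ((S.ψ₂ T).map_target hx.2.1)
  obtain ⟨S₁, u₁, e₁⟩ := (h.mono inter_subset_left).exists_fr p₁ (tl_chi t₁ fun _ hx _ => hx.2.2.2)
  obtain ⟨S₂, u₂, e₂⟩ := (h.mono inter_subset_left).exists_fr p₂ (tl_chi t₂ fun _ hx _ => hx.2.2.2)
  have c₁' := ch_of (γ := S.γ T) (S.ψ₁ T) p₁ (fun _ hx => hx.2.1) o₁ u₁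
  have c₂' := ch_of (γ := S.γ T) (S.ψ₂ T) p₂ (fun _ hx => hx.2.1) o₂ u₂
  refine (exists_mok_ch (S.sm_γ T) (fun _ _ => S.γ_zero T) (fun _ _ => S.γ_one T)
    c₁' c₂' iL_sq (fun θ s => ?_) fun θ s x1 x2 => ?_).imp fun c => Exists.imp fun K e =>
      ⟨e.1, e.2.1.trans (union_subset inter_subset_left inter_subset_left), e.2.2⟩
  · rcases lt_or_ge s 1 with e | e
    · exact Or.inl ⟨hγ θ s, S.γ_lt T e ▸ (S.ψ₁ T).map_source (S.mem₁ e), (S.time_lt T e).2,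
        h₁ _ (S.time_lt T e)⟩
    · have e' := one_pos.trans_le e
      exact Or.inr ⟨hγ θ s, S.γ_pos T e' ▸ (S.ψ₂ T).map_source (S.mem₂ e'), (S.time_pos T e').1,
        h₂ _ (S.time_pos T e')⟩
  obtain ⟨s0, s1⟩ := S.of_time T (θ := θ) (s := s) ⟨x2.2.2.1, x1.2.2.1⟩
  have q1 := r₁_pos (sub_pos.2 S.lt) s0
  have q2 := r₂_pos (sub_pos.2 S.lt) s1
  have f1 : (S.ψ₁ T).symm (S.γ T θ s) = m₁ (c₂ - c₁) θ s :=
    S.γ_lt T s1 ▸ (S.ψ₁ T).left_inv (S.mem₁ s1)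
  have f2 : (S.ψ₂ T).symm (S.γ T θ s) = m₂ (c₂ - c₁) θ s :=
    S.γ_pos T s0 ▸ (S.ψ₂ T).left_inv (S.mem₂ s0)
  have z1 : ((S.ψ₁ T).symm (S.γ T θ s)).1 ≠ 0 :=
    f1 ▸ mul_ne_zero (Complex.ofReal_ne_zero.2 q1.ne') (Circle.coe_ne_zero _)
  have z2 : ((S.ψ₂ T).symm (S.γ T θ s)).2 ≠ 0 :=
    f2 ▸ mul_ne_zero (Complex.ofReal_ne_zero.2 q2.ne') (Circle.coe_ne_zero _)
  have w0 : ((S.ψ₁ T).symm (S.γ T θ s)).2 = 0 := f1 ▸ rfl
  generalize S.γ T θ s = x at *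
  have a1 := c₁'.sz x x1
  have a2 := c₂'.sw x x2
  have ev : ∀ᶠ y in 𝓝 x, y ∈ O₁ ∩ O₂ := (p₁.inter p₂).mem_nhds ⟨x1, x2⟩
  have tr := ((ev.and (a1.continuousAt.eventually_ne z1)).and
    (a2.continuousAt.eventually_ne z2)).mono fun y hy => tr_of hy.2 ((vtx_nx S.uni
      ((S.ψ₁ T).map_target hy.1.1.1.2.1) ((S.ψ₂ T).map_target hy.1.1.2.2.1) hy.1.2 hy.2).1
      (((S.ψ₁ T).right_inv hy.1.1.1.2.1).trans ((S.ψ₂ T).right_inv hy.1.1.2.2.1).symm))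
  have rz := Rep.sub_zero x1.2.2.2 x2.2.2.2
  have mz := (S.ψ₁ T).map_target x1.2.1
  have db : dot (η₁ - η₂) b = 0 := (dot_pm (Jr.pm (Jv.right (S.left ⟨x2.2.2.1.le, x1.2.2.1⟩)
    x2.2.2.1))).1 rz.self_of_nhds
  have cx : chi T v (η₁ - η₂) x = dir ((S.ψ₁ T).symm x).1 ^ (k - 2) := by
    conv_lhs => rw [← (S.ψ₁ T).right_inv x1.2.1]
    exact (congrArg _ (T.vtx_eq_R _ mz z1)).trans ((chi_rod0 _ (hR_mem mz z1) db).trans (he ▸ rfl))
  have sx : S₂ x = (chi T v (η₁ - η₂) x : ℂ) • S₁ x := by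
    refine eq_of_dense dense_off (g := fun y => (chi T v (η₁ - η₂) y : ℂ) • S₁ y)
      (u₂.sm x x2).continuousAt ((cm_coe (csm_chi (t₁ x1) fun _ => rz)).continuousAt.smul
        (u₁.sm x x1).continuousAt) (ev.mono fun y hy o => ?_)
    have := (msc _ _ _).symm.trans (((e₂ y hy.2 o).trans (e₁ y hy.1 o).symm).trans (msc _ _ _))
    rw [← sub_add_cancel η₁ η₂, chi_add o, mul_comm, Circle.coe_mul, mul_smul] at this
    exact smul_right_injective _ (Circle.coe_ne_zero _) this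
  have n1 := norm_pos_iff.2 z1
  have n2 := norm_pos_iff.2 z2
  refine ⟨fun y => ((‖((S.ψ₁ T).symm y).1‖ * ‖((S.ψ₂ T).symm y).2‖⁻¹ : ℝ) : ℂ) *
    (dir ((S.ψ₁ T).symm y).1 ^ k : Circle), c₂ - c₁,
    ‖((S.ψ₂ T).symm x).2‖ / ‖((S.ψ₁ T).symm x).1‖ ^ 3, cm_mul (cm_ofReal ((cm_norm a1 z1).mul
      (cm_fun (contDiffAt_inv ℝ n2.ne') (cm_norm a2 z2)))) (cm_coe (cm_zpow (cm_dir a1 z1) k)),
    mul_ne_zero (Complex.ofReal_ne_zero.2 (by positivity)) (Circle.coe_ne_zero _), w0,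
    (mul_pos n1 n2).trans_eq (congrArg Complex.re tr.self_of_nhds.2.1).symm, by positivity, ?_,
    tr.mono fun y e => ⟨e.1, congrArg Complex.im e.2.1, e.2.2⟩⟩
  show col (S₂ x) = _
  rw [sx, col_smul, cx]
  congr 1
  beta_reduce
  generalize ((S.ψ₁ T).symm x).1 = z at *
  generalize ‖((S.ψ₂ T).symm x).2‖ = r at *
  have cz : conj z = ‖z‖ * ((dir z)⁻¹ : Circle) := by rw [← dir_conj, ← Complex.norm_conj, norm_mul_dir]
  have n1' : (‖z‖ : ℂ) ≠ 0 := by exact_mod_cast n1.ne'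
  have n2' : (r : ℂ) ≠ 0 := by exact_mod_cast n2.ne'
  have := (dir z).coe_ne_zero
  rw [cz, zpow_sub]
  push_cast
  field_simp

end RS

/-! ### arbitrary signs, words -/

variable (T v) in
/-- the vertex charts of determinant one are positive -/
def VP (O : X T v → Ext E4) : Prop := ∀ a b (hu : Uni a b) c, Rod53.dt a b = 1 →
  Orx52.Pos IV (𝓡 4) (T.vtx v hu c) (Uv v a b c) Orx52.oV O

theorem vp_neg {o : N → Ext EN} {O : X T v → Ext E4} (h : Orx52.OX T v o O)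
    (hτ : Orx52.Pos IT IN T.τ {z | z.2 ≠ 0} Orx52.oT o) : VP T v (-O) := fun a b hu c e => by
  have := h.vtx hτ hu c
  rw [e, Int.cast_one, neg_smul, one_smul] at this
  exact Orx52.pos_neg_left.1 this

theorem VP.of_same {O O' : X T v → Ext E4} (h : VP T v O) (e : Int54.SameOn O' O univ) : VP T v O' :=
  fun a b hu c k => (h a b hu c k).right (fun _ => Orx52.ldp (T.vtx v hu c)) (mapsTo_univ _ _) e

theorem jv_pm {α β : Z2} {c x : ℝ} (h : x ∈ Jv v a b c) (h1 : PM a α) (h2 : PM b β) : x ∈ Jv v α β c :=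
  mem_Jv.2 ((mem_Jv.1 h).mono fun _ k =>
    ⟨fun e => (k.1 e).trans h1, k.2.1, fun e => (k.2.2 e).trans h2⟩)

theorem pm_smul {e : ℤ} (he : e = 1 ∨ e = -1) (a : Z2) : PM a (e • a) := by
  rcases he with rfl | rfl
  exacts [Or.inl (one_smul _ _).symm, Or.inr (by simp)]

theorem RS.neg (S : RS v a b k c₁ c₂) : RS v (-a) (-b) k c₁ c₂ :=
  ⟨S.uni.neg_left.neg_right, S.lt, fun _ h => jv_pm (S.left h) (.inr (neg_neg _).symm)
    (.inr (neg_neg _).symm), fun _ h => jv_pm (S.right h) (.inr (neg_neg _).symm) (.inr (by simp; abel))⟩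

open Wd38 (sq dg)

theorem nx_eq {u w u' : Z2} (hu : Uni u w) (hu' : Uni w u') :
    -(Rod53.dt u w • u) + (-sq u w u') • w = Rod53.dt w u' • u' := by
  have h1 := hu.sq
  have h2 := hu'.sq
  ext <;> simp only [Wd38.sq, Rod53.dt, Prod.fst_add, Prod.smul_fst, Prod.snd_add, Prod.smul_snd,
    Prod.fst_neg, Prod.snd_neg, smul_eq_mul] at h1 h2 ⊢
  · linear_combination (u.1 * w.2 - u.2 * w.1) * u.1 * h2 + (w.1 * u'.2 - w.2 * u'.1) * u'.1 * h1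
  · linear_combination (u.1 * w.2 - u.2 * w.1) * u.2 * h2 + (w.1 * u'.2 - w.2 * u'.1) * u'.2 * h1

theorem dot_smul' (η a : Z2) (e : ℤ) : dot η (e • a) = e * dot η a := by simp [dot]; ring
theorem dot_add' (η a b : Z2) : dot η (a + b) = dot η a + dot η b := by simp [dot]; ring

/-- the sphere of the rod `w` between `u` and `u'` -/
theorem rs_of {u w u' : Z2} (hu : Uni u w) (hu' : Uni w u') (lt : c₁ < c₂)
    (l : Ico c₁ c₂ ⊆ Jv v u w c₁) (r : Ioc c₁ c₂ ⊆ Jv v w u' c₂) :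
    RS v (Rod53.dt u w • u) w (-sq u w u') c₁ c₂ :=
  ⟨(pm_smul hu u).symm.uni hu, lt, fun _ h => jv_pm (l h) (pm_smul hu u) (.refl _),
    fun _ h => jv_pm (r h) (.refl _) (nx_eq hu hu' ▸ pm_smul hu' u')⟩

theorem dt_rs {u w : Z2} (hu : Uni u w) : Rod53.dt (Rod53.dt u w • u) w = 1 := by
  have := hu.sq
  simp only [Rod53.dt, Prod.smul_fst, Prod.smul_snd, smul_eq_mul] at this ⊢
  linear_combination this

theorem dot_rs {u w u' η₁ η₂ : Z2} (hu : Uni u w) (hu' : Uni w u') (h : dot η₁ w = dot η₂ w) :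
    dot (η₁ - η₂) (Rod53.dt u w • u) = dg u w u' (dot η₁ u) (dot η₁ w) (dot η₂ u') := by
  have := congrArg (dot η₂) (nx_eq hu hu')
  rw [dot_add', dot_neg', dot_smul' _ w, dot_smul' _ u'] at this
  rw [dot_sub, dot_smul' η₁, Wd38.dg, h]
  linarith

variable {κ : Type} [Fintype κ] [DecidableEq κ] {m : ℝ → ℤ} {η₁ η₂ : Z2} {U : Set (X T v)}
  {p : X T v → Matrix κ κ ℂ} {σ : X T v → Matrix κ Unit ℂ} {O : X T v → Ext E4}

theorem RS.exists_mok' [SecondCountableTopology (X T v)] (S : RS v a b k c₁ c₂)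
    (hd : Rod53.dt a b = 1) (hO : VP T v O) (hU : IsOpen U)
    (hs : ∀ x ∉ off T v, T.time v x ∈ Icc c₁ c₂ → x ∈ U) (h : TL T v m p σ U)
    (h₁ : ∀ t ∈ Ico c₁ c₂, Rep v m η₁ t) (h₂ : ∀ t ∈ Ioc c₁ c₂, Rep v m η₂ t)
    (he : |dot (η₁ - η₂) a| = |k - 2|) :
    ∃ (c : Cut (X T v) (κ ⊕ κ)) (K : Set (X T v)), (c.γ = S.γ T ∨ c.γ = S.neg.γ T) ∧ K ⊆ U ∧
      MOK (𝓡 4) c O (fun x => rl (p x)) (iL κ) K := by
  have key : ∀ {a b : Z2} (S : RS v a b k c₁ c₂), Rod53.dt a b = 1 → dot (η₁ - η₂) a = k - 2 →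
      ∃ (c : Cut (X T v) (κ ⊕ κ)) (K : Set (X T v)), c.γ = S.γ T ∧ K ⊆ U ∧
        MOK (𝓡 4) c O (fun x => rl (p x)) (iL κ) K := fun S hd he =>
    S.exists_mok (hO _ _ _ _ hd) (hO _ _ _ _ ((dt_nx _ _ _).trans hd)) hU
      (fun θ s => hs _ (S.not_off T θ s) (S.time_mem T θ s)) h h₁ h₂ he
  rcases abs_eq_abs.1 he with e | e
  · obtain ⟨c, K, k1, k2⟩ := key S hd e
    exact ⟨c, K, .inl k1, k2⟩
  · obtain ⟨c, K, k1, k2⟩ := key S.neg (by rw [dt_neg_left, dt_neg_right, neg_neg, hd])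
      (by rw [dot_neg', e, neg_neg])
    exact ⟨c, K, .inr k1, k2⟩

section wd
variable {s : ℤ → Z2} {n : ℤ → ℤ} {x y : ℤ}

theorem rs_wd (hxy : x ≤ y) (hu : Uni (s (x - 1)) (s x)) (hu' : Uni (s y) (s (y + 1)))
    (hm : ∀ j, x ≤ j → j ≤ y → PM (s j) (s x)) :
    RS (wd s) (Rod53.dt (s (x - 1)) (s x) • s (x - 1)) (s x) (-sq (s (x - 1)) (s x) (s (y + 1)))
      x (y + 1) := by
  have j := Ioo_subset_Jr' hm
  have e := hm y hxy le_rfl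
  refine rs_of hu (e.symm.uni hu') (by exact_mod_cast Int.lt_add_one_iff.2 hxy)
    (fun t ht => ?_) fun t ht => ?_
  · rcases ht.1.eq_or_lt with rfl | k
    exacts [mem_Jv_wd hu, Jv.of_right (j ⟨k, ht.2⟩) k]
  · rcases ht.2.eq_or_lt with rfl | k
    · have := mem_Jv_wd (a := s) (i := y + 1) (by simpa using hu')
      rw [add_sub_cancel_right] at this
      exact_mod_cast jv_pm this e (.refl _)
    · exact Jv.of_left (j ⟨ht.1, k⟩) k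

/-- **the cut round the rod on the slots `x, …, y` of a word**, `|Λ · S| = |S² + 2|` -/
theorem exists_mok_wd [SecondCountableTopology (X T (wd s))] (hxy : x ≤ y)
    (hu : Uni (s (x - 1)) (s x)) (hu' : Uni (s y) (s (y + 1)))
    (hm : ∀ j, x ≤ j → j ≤ y → s j = s x ∧ n j = n x ∨ s j = -s x ∧ n j = -n x)
    (he : |dg (s (x - 1)) (s x) (s (y + 1)) (n (x - 1)) (n x) (n (y + 1))| =
      |sq (s (x - 1)) (s x) (s (y + 1)) + 2|) {O : X T (wd s) → Ext E4} (hO : VP T (wd s) O)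
    {U : Set (X T (wd s))} (hU : IsOpen U)
    (hs : ∀ z ∉ off T (wd s), T.time (wd s) z ∈ Icc (x : ℝ) (y + 1) → z ∈ U)
    {p : X T (wd s) → Matrix κ κ ℂ} {σ : X T (wd s) → Matrix κ Unit ℂ}
    (h : TL T (wd s) (wm s n) p σ U) :
    ∃ (S : RS (wd s) (Rod53.dt (s (x - 1)) (s x) • s (x - 1)) (s x)
        (-sq (s (x - 1)) (s x) (s (y + 1))) x (y + 1))
      (c : Cut (X T (wd s)) (κ ⊕ κ)) (K : Set (X T (wd s))), (c.γ = S.γ T ∨ c.γ = S.neg.γ T) ∧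
      K ⊆ U ∧ MOK (𝓡 4) c O (fun x => rl (p x)) (iL κ) K := by
  have pm : ∀ j, x ≤ j → j ≤ y → PM (s j) (s x) := fun j a b => (hm j a b).imp And.left And.left
  have hu'' := (pm y hxy le_rfl).symm.uni hu'
  have mid : ∀ η, dot η (s x) = n x → ∀ j, x ≤ j → j ≤ y → dot η (s j) = n j := fun η e j a b => by
    rcases hm j a b with k | k <;> rw [k.1, k.2]
    exacts [e, by rw [dot_neg', e]]
  obtain ⟨η₁, a1, a2⟩ : ∃ η, dot η (s (x - 1)) = n (x - 1) ∧ dot η (s x) = n x :=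
    ⟨_, dual_left hu _ _, dual_right hu _ _⟩
  obtain ⟨η₂, b1, b2⟩ : ∃ η, dot η (s x) = n x ∧ dot η (s (y + 1)) = n (y + 1) :=
    ⟨_, dual_left hu'' _ _, dual_right hu'' _ _⟩
  refine ⟨rs_wd hxy hu hu' pm, RS.exists_mok' _ (dt_rs hu) hO hU hs h (η₁ := η₁) (η₂ := η₂)
    (fun t ht => rep_wd (i := x - 1) (j := y) (fun j a b => ?_) ⟨by push_cast; linarith [ht.1], ht.2⟩)
    (fun t ht => rep_wd (i := x) (j := y + 1) (fun j a b => ?_) ⟨ht.1, by push_cast; linarith [ht.2]⟩) ?_⟩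
  · rcases a.eq_or_lt with rfl | k
    exacts [a1, mid _ a2 j (by omega) b]
  · rcases b.eq_or_lt with rfl | k
    exacts [b2, mid _ b1 j a (by omega)]
  · rw [dot_rs hu hu'' (a2.trans b1.symm), a1, a2, b2, he, ← abs_neg]
    congr 1
    ring

end wd

end Crest.Agent.X212.Cut54
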