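import Crest.Agent.X212.Cut54.Glue
import Crest.Agent.X212.Line51.Rl
import Crest.Agent.X212.Orx52.Pos

/-!
# Row 212, CUT-DAT, part 5: spheres with two complex charts
-/

set_option autoImplicit false
set_option linter.unusedSectionVars false
noncomputable section
open scoped Manifold ContDiff Topology InnerProductSpace ComplexConjugate
open Set Filter Function Module
open Crest.Agent.R208.F Crest.Agent.X212.Dr59 Crest.Agent.X212.Int54 Crest.Agent.X212.Pj41

namespace Crest.Agent.X212.Cut54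
open An
open Line51 (dc dc_mul dc_add dc_star dc_congr dc_const mf_re mf_im md_of fsm_re fsm_im rl iL)

variable {E : Type} [NormedAddCommGroup E] [NormedSpace ℝ E] [FiniteDimensional ℝ E]
  {HM : Type} [TopologicalSpace HM] {I : ModelWithCorners ℝ E HM} [I.Boundaryless]
  {M : Type} [TopologicalSpace M] [ChartedSpace HM M] [IsManifold I ∞ M]
  {lam : Type} [Fintype lam]

/-- the data of one chart: `Re dz ∧ Im dz + Re dw ∧ Im dw` and `conj (dz ∧ dw) ⊗ s` -/
def loc (γ : UnitAddCircle → ℝ → M) (il : En lam) (z w : M → ℂ) (s : M → Eu lam) : Cut M lam where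
  γ := γ
  w := [(1, fun x => (z x).re, fun x => (z x).im), (1, fun x => (w x).re, fun x => (w x).im)]
  e := [(s, fun x => (z x).re, fun x => (w x).re), (-s, fun x => (z x).im, fun x => (w x).im),
    (fun x => -il (s x), fun x => (z x).re, fun x => (w x).im),
    (fun x => -il (s x), fun x => (z x).im, fun x => (w x).re)]

variable {γ : UnitAddCircle → ℝ → M} {o : M → Ext E} {l : M → En lam} {il : En lam} {z w z' w' : M → ℂ}
  {s s' : M → Eu lam} {x : M} {O O' : Set M}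

variable (I) in
/-- a complex chart of the sphere with a section of the line -/
structure Ch (γ : UnitAddCircle → ℝ → M) (o : M → Ext E) (l : M → En lam) (il : En lam) (O : Set M)
    (z w : M → ℂ) (s : M → Eu lam) : Prop where
  op : IsOpen O
  sz : ∀ x ∈ O, FSm I z x
  sw : ∀ x ∈ O, FSm I w x
  ss : ∀ x ∈ O, FSm I s x
  ne : ∀ x ∈ O, s x ≠ 0
  l1 : ∀ x ∈ O, l x (s x) = s x
  l2 : ∀ x ∈ O, l x (il (s x)) = il (s x)
  ori : ∀ x ∈ O, 0 < tp E (o x) * tp E (cw4 (dc I z x : E →ₗ[ℝ] ℂ) (dc I w x))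

theorem Ch.smOn (h : Ch I γ o l il O z w s) : SmOn I (loc γ il z w s) O := by
  have a : ContMDiffOn I 𝓘(ℝ, ℝ) ∞ (fun x => (z x).re) O := fun x hx => (fsm_re (h.sz x hx)).contMDiffWithinAt
  have b : ContMDiffOn I 𝓘(ℝ, ℝ) ∞ (fun x => (z x).im) O := fun x hx => (fsm_im (h.sz x hx)).contMDiffWithinAt
  have c : ContMDiffOn I 𝓘(ℝ, ℝ) ∞ (fun x => (w x).re) O := fun x hx => (fsm_re (h.sw x hx)).contMDiffWithinAt
  have d : ContMDiffOn I 𝓘(ℝ, ℝ) ∞ (fun x => (w x).im) O := fun x hx => (fsm_im (h.sw x hx)).contMDiffWithinAt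
  have e : ContMDiffOn I 𝓘(ℝ, Eu lam) ∞ s O := fun x hx => (h.ss x hx).contMDiffWithinAt
  have f : ContMDiffOn I 𝓘(ℝ, Eu lam) ∞ (fun x => -il (s x)) O :=
    (il.contMDiff.comp_contMDiffOn e).neg
  simp only [SmOn, loc, List.forall_mem_cons, List.not_mem_nil, false_imp_iff, implies_true, and_true]
  exact ⟨⟨⟨contMDiffOn_const, a, b⟩, contMDiffOn_const, c, d⟩, ⟨e, a, c⟩, ⟨e.neg, b, d⟩, ⟨f, a, d⟩, f, b, c⟩

theorem Ch.wv (h : Ch I γ o l il O z w s) (hx : x ∈ O) (u v : E) :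
    wv I (loc γ il z w s).w x u v = ka (dc I z x) u v + ka (dc I w x) u v := by
  simp [Cut54.wv, loc, dw, wg, ka, mf_re (md_of (h.sz x hx)), mf_im (md_of (h.sz x hx)),
    mf_re (md_of (h.sw x hx)), mf_im (md_of (h.sw x hx))]
  ring

theorem Ch.ev (h : Ch I γ o l il O z w s) (hx : x ∈ O) (u v : E) :
    ev I (loc γ il z w s).e (l x) x u v = cs il (cb (dc I z x) (dc I w x) u v) (s x) := by
  simp [Cut54.ev, loc, dw, wg, cb, cs, mf_re (md_of (h.sz x hx)), mf_im (md_of (h.sz x hx)),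
    mf_re (md_of (h.sw x hx)), mf_im (md_of (h.sw x hx)), h.l1 x hx, h.l2 x hx]
  module

theorem posL_one {o : Ext E} {l : En lam} {s : Eu lam} (a b : E →L[ℝ] ℂ) (hs : s ≠ 0) (hl : l s = s)
    (ho : 0 < tp E o * tp E (cw4 (a : E →ₗ[ℝ] ℂ) b)) {c : ℝ} (hc : 0 < c) :
    PosL o l il (fun u v => c * (ka a u v + ka b u v)) fun u v => c • cs il (cb a b u v) s :=
  posL_of (s := c • s) hc hc (smul_ne_zero hc.ne' hs) (by rw [map_smul, hl]) ho
    (fun u v => by rw [mul_add]; rfl) fun u v => by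
      rw [cs, cs, map_smul, smul_add, smul_comm c, smul_comm c]; rfl

theorem posL_two {o : Ext E} {l : En lam} {s : Eu lam} (a b a' b' : E →L[ℝ] ℂ) {z h : ℂ}
    {g κ c₁ c₂ : ℝ} (hz : z ≠ 0) (hh : h ≠ 0)
    (hg : 0 < g) (hκ : 0 < κ) (p1 : 0 ≤ c₁) (p2 : 0 ≤ c₂) (p3 : 0 < c₁ + c₂)
    (ha : ∀ v, a' v = h * b v) (e1 : ∀ v, (g * z * b' v).re = -(conj z * a v).re)
    (e2 : ∀ v, (z * b' v + g * conj z * a v).im = 0) (hi : il * il = -1) (hs : s ≠ 0) (hl : l s = s)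
    (hl' : l (il s) = il s) (ho : 0 < tp E o * tp E (cw4 (a : E →ₗ[ℝ] ℂ) b)) :
    PosL o l il (fun u v => c₁ * (ka a u v + ka b u v) + c₂ * (ka a' u v + ka b' u v))
      fun u v => c₁ • cs il (cb a b u v) s +
        c₂ • cs il (cb a' b' u v) (cs il (κ * h * conj z ^ 2) s) := by
  have := posL_mix (a := a.toLinearMap) (b := b.toLinearMap) (a' := a'.toLinearMap)
    (b' := b'.toLinearMap) hz hh hg hκ p1 p2 p3 (fun v => ha v) (fun v => e1 v) (fun v => e2 v)
    hi hs hl hl' ho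
  simp only [ContinuousLinearMap.coe_coe] at this
  exact this

theorem Ch.posL (h : Ch I γ o l il O z w s) (hx : x ∈ O) {c : ℝ} (hc : 0 < c) :
    PosL (o x) (l x) il (fun u v => c * Cut54.wv I (loc γ il z w s).w x u v)
      fun u v => c • Cut54.ev I (loc γ il z w s).e (l x) x u v := by
  simp only [h.wv hx, h.ev hx]
  exact posL_one _ _ (h.ne x hx) (h.l1 x hx) (h.ori x hx) hc

variable (I) in
/-- the transition between the charts `(z, w)` and `(w', z')` at a point of the sphere -/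
def Tr (il : En lam) (z w w' z' : M → ℂ) (s s' : M → Eu lam) (x : M) : Prop :=
  ∃ (h : M → ℂ) (L κ : ℝ), FSm I h x ∧ h x ≠ 0 ∧ w x = 0 ∧ 0 < (z x * z' x).re ∧ 0 < κ ∧
    s' x = cs il (κ * h x * conj (z x) ^ 2) (s x) ∧ ∀ᶠ y in 𝓝 x, w' y = h y * w y ∧
      (z y * z' y).im = 0 ∧ ‖z y‖ ^ 2 + ‖z' y‖ ^ 2 = L + ‖w y‖ ^ 2 + ‖w' y‖ ^ 2

theorem Tr.posL (t : Tr I il z w w' z' s s' x) (h : Ch I γ o l il O z w s)
    (h' : Ch I γ o l il O' w' z' s') (hi : il * il = -1) (hx : x ∈ O) (hx' : x ∈ O') {c c' : ℝ}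
    (p1 : 0 ≤ c) (p2 : 0 ≤ c') (p3 : 0 < c + c') : PosL (o x) (l x) il
      (fun u v => c * wv I (loc γ il z w s).w x u v + c' * wv I (loc γ il w' z' s').w x u v)
      fun u v => c • ev I (loc γ il z w s).e (l x) x u v + c' • ev I (loc γ il w' z' s').e (l x) x u v := by
  obtain ⟨f, L, κ, hf, f0, w0, zz, hκ, hs, e⟩ := t
  have a := h.sz x hx
  have b := h.sw x hx
  have a' := h'.sz x hx'
  have b' := h'.sw x hx'
  have z0 : z x ≠ 0 := fun k => by simp [k] at zz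
  have n0 := Complex.normSq_pos.2 z0
  have w1 : w' x = 0 := by rw [e.self_of_nhds.1, w0, mul_zero]
  have g : z' x = ((z x * z' x).re / Complex.normSq (z x) : ℝ) * conj (z x) := by
    refine mul_left_cancel₀ z0 ?_
    rw [mul_left_comm, Complex.mul_conj, ← Complex.ofReal_mul, div_mul_cancel₀ _ n0.ne']
    exact Complex.ext rfl e.self_of_nhds.2.1
  have sq : ∀ {f : M → ℂ}, FSm I f x → ∀ v, dc I (fun y => f y * star (f y)) x v =
      dc I f x v * conj (f x) + f x * conj (dc I f x v) := fun hf v => by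
    rw [dc_mul hf hf.star', dc_star hf]; rfl
  simp only [h.wv hx, h'.wv hx', h.ev hx, h'.ev hx', hs]
  refine posL_two _ _ _ _ z0 f0
    (div_pos zz n0) hκ p1 p2 p3 (fun v => ?_) (fun v => ?_) (fun v => ?_) hi (h.ne x hx) (h.l1 x hx)
    (h.l2 x hx) (h.ori x hx)
  · rw [dc_congr (g := fun y => f y * w y) (e.mono fun y k => k.1), dc_mul hf b, w0, mul_zero, zero_add]
  · have k := congrArg (fun A : E →L[ℝ] ℂ => (A v).re) (dc_congr (I := I) (x := x)
      (f := fun y => z y * star (z y) + z' y * star (z' y))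
      (g := fun y => (L : ℂ) + w y * star (w y) + w' y * star (w' y)) (e.mono fun y k => by
        simp only [Complex.star_def, Complex.mul_conj, Complex.normSq_eq_norm_sq]
        exact_mod_cast k.2.2))
    have cL : FSm I (fun _ : M => (L : ℂ)) x := contMDiffAt_const
    have cL' : FSm I (fun y => (L : ℂ) + w y * star (w y)) x := cL.add (b.mul' b.star')
    simp only [dc_add (a.mul' a.star') (b'.mul' b'.star'), dc_add cL' (a'.mul' a'.star'),
      dc_add cL (b.mul' b.star'), sq a, sq b, sq a', sq b', dc_const, w0, w1] at k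
    rw [g] at k
    generalize (z x * z' x).re / Complex.normSq (z x) = r at k ⊢
    simp at k ⊢
    linarith
  · have k := congrArg (fun A : E →L[ℝ] ℝ => A v) (mf_congr (J := I) (I := 𝓘(ℝ, ℝ)) (y := x)
      (f := fun y => (z y * z' y).im) (g := fun _ => 0) (e.mono fun y k => k.2.1))
    simp only [mf_im (md_of (a.mul' b')), dc_mul a b', mf_const] at k
    rw [g] at k
    generalize (z x * z' x).re / Complex.normSq (z x) = r at k ⊢
    simp at k ⊢
    linarith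

/-- **the cut of a sphere with two charts** -/
theorem exists_mok_ch [T2Space M] [SecondCountableTopology M]
    (sm : ContMDiff 𝓘(ℝ, ℝ × ℝ) I ∞ fun y : ℝ × ℝ => γ (y.1 : UnitAddCircle) y.2)
    (h0 : ∀ θ s, s ≤ 0 → γ θ s = γ 0 0) (h1 : ∀ θ s, 1 ≤ s → γ θ s = γ 0 1)
    (h : Ch I γ o l il O z w s) (h' : Ch I γ o l il O' w' z' s') (hi : il * il = -1)
    (hc : ∀ θ s, γ θ s ∈ O ∪ O')
    (t : ∀ θ r, γ θ r ∈ O → γ θ r ∈ O' → Tr I il z w w' z' s s' (γ θ r)) :
    ∃ (k : Cut M lam) (K : Set M), k.γ = γ ∧ K ⊆ O ∪ O' ∧ MOK I k o l il K := by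
  refine exists_mok sm h0 h1 h.op h'.op h.smOn h'.smOn hc ?_
  rintro _ ⟨⟨θ, r⟩, rfl⟩ c c' p1 p2 p3 a a'
  by_cases k : c = 0
  · subst k
    rw [zero_add] at p3
    simpa only [zero_mul, zero_add, zero_smul] using h'.posL (a' p3.ne') p3
  · by_cases k' : c' = 0
    · subst k'
      rw [add_zero] at p3
      simpa only [zero_mul, add_zero, zero_smul] using h.posL (a k) p3
    · exact (t θ r (a k) (a' k')).posL h h' hi (a k) (a' k') p1 p2 p3

/-! ### unit sections of hermitian lines, positive charts -/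

variable {κ : Type} [Fintype κ] [DecidableEq κ]

/-- a column as a real vector -/
def col (S : Matrix κ Unit ℂ) : Eu (κ ⊕ κ) := rl S (EuclideanSpace.single (.inl ()) 1)

theorem col_mul {κ' : Type} [Fintype κ'] [DecidableEq κ'] (p : Matrix κ' κ ℂ) (S : Matrix κ Unit ℂ) :
    col (p * S) = rl p (col S) := by rw [col, Line51.rl_comp]; rfl

theorem col_smul (c : ℂ) (S : Matrix κ Unit ℂ) : col (c • S) = cs (iL κ) c (col S) := by
  have : c • S = c.re • S + c.im • Complex.I • S := by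
    rw [← Complex.coe_smul, ← Complex.coe_smul, smul_smul, ← add_smul, Complex.re_add_im]
  rw [this, col, map_add, map_smul, map_smul, Line51.rl_I_smul]; rfl

theorem col_ne {S : Matrix κ Unit ℂ} {p : Matrix κ κ ℂ} (h : PIso S 1 p) : col S ≠ 0 := fun e => by
  have := col_mul S.conjTranspose S
  rw [e, map_zero, h.src, col, Line51.rl_one] at this
  simpa using congrArg (fun v : Eu (Unit ⊕ Unit) => v (.inl ())) this

theorem li_rl {κ' : Type} [Fintype κ'] [DecidableEq κ'] {u : Matrix κ' κ ℂ} {p : Matrix κ κ ℂ}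
    {q : Matrix κ' κ' ℂ} (h : PIso u p q) : LI (rl p) (iL κ) (rl q) (iL κ') (rl u) :=
  ⟨by rw [← Line51.rl_ct, ← Line51.rl_comp, h.src], by rw [← Line51.rl_ct, ← Line51.rl_comp, h.tgt],
    Line51.rl_comp_iL _⟩

theorem ch_of (ψ : PartialDiffeomorph 𝓘(ℝ, ℂ × ℂ) I (ℂ × ℂ) M ∞) (hO : IsOpen O) (hs : O ⊆ ψ.target)
    (ho : Orx52.Pos 𝓘(ℝ, ℂ × ℂ) I ψ ψ.source Orx52.oV o) {p : M → Matrix κ κ ℂ}
    {S : M → Matrix κ Unit ℂ} (hS : Line51.Uni I (fun _ => 1) p S O) :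
    Ch I γ o (fun x => rl (p x)) (iL κ) O (fun x => (ψ.symm x).1) (fun x => (ψ.symm x).2)
      fun x => col (S x) := by
  have sm : ∀ x ∈ O, ContMDiffAt I 𝓘(ℝ, ℂ × ℂ) ∞ ψ.symm x := fun x hx =>
    ψ.contMDiffOn_invFun.contMDiffAt (ψ.open_target.mem_nhds (hs hx))
  have a : ∀ x ∈ O, FSm I (fun x => (ψ.symm x).1) x := fun x hx =>
    contDiffAt_fst.comp_contMDiffAt (sm x hx)
  have b : ∀ x ∈ O, FSm I (fun x => (ψ.symm x).2) x := fun x hx =>
    contDiffAt_snd.comp_contMDiffAt (sm x hx)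
  have l1 : ∀ x ∈ O, rl (p x) (col (S x)) = col (S x) := fun x hx => by
    rw [← col_mul, (hS.iso x hx).left]
  refine ⟨hO, a, b, fun x hx => (Line51.fsm_rl (hS.sm x hx)).clm_apply contMDiffAt_const,
    fun x hx => col_ne (hS.iso x hx), l1, fun x hx => ?_, fun x hx => ?_⟩
  · rw [← mul_apply_eq_comp, ← Line51.iL_mul, mul_apply_eq_comp, l1 x hx]
  · have := ho.symm subset_rfl x (ψ.image_source_eq_target.symm ▸ hs hx)
    rw [mul_comm] at this
    convert this using 3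
    have e : Orx52.oV (ψ.symm x) = cw4 (LinearMap.fst ℝ ℂ ℂ) (LinearMap.snd ℝ ℂ ℂ) := by
      simp only [Orx52.oV, Orx52.pr, Orx52.px, Orx52.oZ_eq, map_mul, pb_io]; rfl
    rw [pm_apply, e, cw4, cw4, pb_w4]
    have e1 : (dc I (fun x => (ψ.symm x).1) x : E →ₗ[ℝ] ℂ) =
        LinearMap.fst ℝ ℂ ℂ ∘ₗ (mf I 𝓘(ℝ, ℂ × ℂ) ψ.symm x : E →ₗ[ℝ] ℂ × ℂ) := LinearMap.ext fun v =>
      Sob92.dv_clm (e := fun _ => v) (ContinuousLinearMap.fst ℝ ℂ ℂ) ((sm x hx).mdifferentiableAt ne0)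
    have e2 : (dc I (fun x => (ψ.symm x).2) x : E →ₗ[ℝ] ℂ) =
        LinearMap.snd ℝ ℂ ℂ ∘ₗ (mf I 𝓘(ℝ, ℂ × ℂ) ψ.symm x : E →ₗ[ℝ] ℂ × ℂ) := LinearMap.ext fun v =>
      Sob92.dv_clm (e := fun _ => v) (ContinuousLinearMap.snd ℝ ℂ ℂ) ((sm x hx).mdifferentiableAt ne0)
    rw [e1, e2]
    rfl

end Crest.Agent.X212.Cut54
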